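import Mathlib

/-!
# Abstract core of the improved Crouzeix-Palencia bound.

`CPData X H` packages: a commutative algebra of pairs (function on the curve `X`, operator),
the positive operator valued map `S` (double layer), and the chord Markov kernel `E`.
The main theorem `core` says that the least constant `K` with `‖u.2‖ ≤ K ‖u.1‖` on the algebra
is at most `233/100`.
-/

namespace Vale.Agent.Lib.P123

open ComplexConjugate

variable {X H : Type*} [TopologicalSpace X] [CompactSpace X]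
  [NormedAddCommGroup H] [InnerProductSpace ℂ H] [CompleteSpace H]

variable (X H) in
/-- Abstract data behind the Crouzeix-Palencia argument. -/
structure CPData where
  /-- algebra of pairs (boundary function, operator) -/
  alg : Subalgebra ℂ (C(X, ℂ) × (H →L[ℂ] H))
  comm : ∀ u ∈ alg, ∀ v ∈ alg, u.2 * v.2 = v.2 * u.2
  /-- the positive map `F ↦ ∫ F dμ` -/
  S : C(X, ℂ) →ₗ[ℂ] (H →L[ℂ] H)
  S_one : S 1 = (2 : ℂ) • (1 : H →L[ℂ] H)
  S_star : ∀ F, S (star F) = ContinuousLinearMap.adjoint (S F)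
  S_pos : ∀ (α β : C(X, ℂ)) (x y : H),
    0 ≤ (inner ℂ x (S (star α * α) x) + inner ℂ y (S (star β * β) y)
      + inner ℂ y (S (star β * α) x) + inner ℂ x (S (star α * β) y)).re
  S_le : ∀ (F : C(X, ℂ)) (x : H), ‖F‖ ≤ 1 → (inner ℂ x (S (star F * F) x)).re ≤ 2 * ‖x‖ ^ 2
  /-- dense set of boundary points where the chord kernel is used -/
  D : Set X
  D_dense : Dense D
  /-- the chord Markov kernel -/
  E : X → C(X, ℂ) →ₗ[ℂ] ℂ
  E_one : ∀ σ ∈ D, E σ 1 = 1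
  E_star : ∀ σ ∈ D, ∀ F, E σ (star F) = conj (E σ F)
  E_pos : ∀ σ ∈ D, ∀ F : C(X, ℂ), (∀ s, (F s).im = 0 ∧ 0 ≤ (F s).re) → 0 ≤ (E σ F).re
  /-- the Cauchy transform of the conjugate stays in the algebra -/
  theta : ∀ u ∈ alg, ∃ v ∈ alg, S u.1 = u.2 + ContinuousLinearMap.adjoint v.2 ∧
    ∀ σ ∈ D, v.1 σ = E σ (star u.1)

variable (P : CPData X H)

/-! ### The chord kernel -/

lemma conj_mul_eq (z : ℂ) : conj z * z = ((‖z‖ ^ 2 : ℝ) : ℂ) := by
  rw [Complex.conj_mul']; push_cast; rfl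

lemma mul_conj_eq (z : ℂ) : z * conj z = ((‖z‖ ^ 2 : ℝ) : ℂ) := by
  rw [Complex.mul_conj']; push_cast; rfl

namespace CPData

lemma E_cs {σ : X} (hσ : σ ∈ P.D) (ξ : C(X, ℂ)) :
    ‖P.E σ ξ‖ ^ 2 ≤ (P.E σ (star ξ * ξ)).re := by
  set l := P.E σ ξ with hl
  have hpos := P.E_pos σ hσ (star (ξ - ContinuousMap.const X l) * (ξ - ContinuousMap.const X l)) (by
    intro s
    simp only [ContinuousMap.mul_apply, ContinuousMap.star_apply, Complex.star_def]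
    rw [conj_mul_eq]
    exact ⟨Complex.ofReal_im _, by rw [Complex.ofReal_re]; exact sq_nonneg _⟩)
  have hconst : ContinuousMap.const X l = l • (1 : C(X, ℂ)) := by
    ext s; simp
  have hconst' : star (ContinuousMap.const X l) = (conj l) • (1 : C(X, ℂ)) := by
    ext s; simp
  have hexp : star (ξ - ContinuousMap.const X l) * (ξ - ContinuousMap.const X l)
      = star ξ * ξ - (conj l) • ξ - l • star ξ + (l * conj l) • (1 : C(X, ℂ)) := by
    ext s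
    simp only [ContinuousMap.mul_apply, ContinuousMap.star_apply, ContinuousMap.sub_apply,
      ContinuousMap.add_apply, ContinuousMap.smul_apply, ContinuousMap.const_apply,
      ContinuousMap.one_apply, Complex.star_def, map_sub, smul_eq_mul]
    ring
  rw [hexp] at hpos
  simp only [map_add, map_sub, map_smul, smul_eq_mul, P.E_one σ hσ, P.E_star σ hσ, ← hl, mul_one] at hpos
  have h1 : (conj l * l).re = ‖l‖ ^ 2 := by
    rw [conj_mul_eq, Complex.ofReal_re]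
  have h2 : (l * conj l).re = ‖l‖ ^ 2 := by
    rw [mul_conj_eq, Complex.ofReal_re]
  simp only [Complex.add_re, Complex.sub_re] at hpos
  rw [h1, h2] at hpos
  linarith

lemma E_mono {σ : X} (hσ : σ ∈ P.D) (F G : C(X, ℂ))
    (h : ∀ s, (G s - F s).im = 0 ∧ 0 ≤ (G s - F s).re) : (P.E σ F).re ≤ (P.E σ G).re := by
  have := P.E_pos σ hσ (G - F) (by simpa using h)
  simp only [map_sub, Complex.sub_re] at this
  linarith

lemma E_norm_le_one {σ : X} (hσ : σ ∈ P.D) (ξ : C(X, ℂ)) (hξ : ‖ξ‖ ≤ 1) : ‖P.E σ ξ‖ ≤ 1 := by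
  have h1 := P.E_cs hσ ξ
  have h2 : (P.E σ (star ξ * ξ)).re ≤ (P.E σ 1).re := by
    apply P.E_mono hσ
    intro s
    simp only [ContinuousMap.one_apply, ContinuousMap.mul_apply, ContinuousMap.star_apply,
      Complex.star_def]
    have hs : ‖ξ s‖ ≤ 1 := (ContinuousMap.norm_coe_le_norm ξ s).trans hξ
    rw [conj_mul_eq]
    have : ‖ξ s‖ ^ 2 ≤ 1 := pow_le_one₀ (norm_nonneg _) hs
    constructor
    · simp only [Complex.sub_im, Complex.one_im, Complex.ofReal_im, sub_zero]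
    · simp only [Complex.sub_re, Complex.one_re, Complex.ofReal_re]
      linarith
  rw [P.E_one σ hσ] at h2
  simp only [Complex.one_re] at h2
  nlinarith [norm_nonneg (P.E σ ξ)]

/-- The chord flip estimate. -/
lemma E_flip {σ : X} (hσ : σ ∈ P.D) (Ψ φ : C(X, ℂ)) (hΨ : ‖Ψ‖ ≤ 1) (hφ : ‖φ‖ ≤ 1)
    (c : ℂ) (hc : ‖c‖ ≤ 1) :
    ‖P.E σ (Ψ * ((1 : C(X, ℂ)) + c • star φ))‖ ^ 2 ≤ 2 + 2 * (c * P.E σ (star φ)).re := by
  set ξ := Ψ * ((1 : C(X, ℂ)) + c • star φ) with hξ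
  have h1 := P.E_cs hσ ξ
  set G : C(X, ℂ) := (2 : ℂ) • (1 : C(X, ℂ)) + c • star φ + (conj c) • φ with hG
  have h2 : (P.E σ (star ξ * ξ)).re ≤ (P.E σ G).re := by
    apply P.E_mono hσ
    intro s
    have hΨs : ‖Ψ s‖ ≤ 1 := (ContinuousMap.norm_coe_le_norm Ψ s).trans hΨ
    have hφs : ‖φ s‖ ≤ 1 := (ContinuousMap.norm_coe_le_norm φ s).trans hφ
    simp only [hG, hξ, ContinuousMap.add_apply, ContinuousMap.smul_apply, ContinuousMap.one_apply,
      ContinuousMap.mul_apply, ContinuousMap.star_apply, Complex.star_def, smul_eq_mul]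
    set w : ℂ := 1 + c * conj (φ s) with hw
    have hmul : conj (Ψ s * w) * (Ψ s * w) = ((‖Ψ s‖ ^ 2 * ‖w‖ ^ 2 : ℝ) : ℂ) := by
      rw [conj_mul_eq, norm_mul]
      congr 1; ring
    rw [hmul]
    have hwsq : ‖w‖ ^ 2 = 1 + ‖c‖ ^ 2 * ‖φ s‖ ^ 2 + 2 * (c * conj (φ s)).re := by
      rw [← Complex.normSq_eq_norm_sq, hw, Complex.normSq_add, Complex.normSq_one, Complex.normSq_mul,
        Complex.normSq_conj, Complex.normSq_eq_norm_sq, Complex.normSq_eq_norm_sq]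
      simp
    have hcφ : ‖c‖ ^ 2 * ‖φ s‖ ^ 2 ≤ 1 := by
      have h1 : ‖c‖ ^ 2 ≤ 1 := pow_le_one₀ (norm_nonneg _) hc
      have h2 : ‖φ s‖ ^ 2 ≤ 1 := pow_le_one₀ (norm_nonneg _) hφs
      nlinarith [sq_nonneg ‖c‖, sq_nonneg ‖φ s‖]
    have hΨsq : ‖Ψ s‖ ^ 2 ≤ 1 := pow_le_one₀ (norm_nonneg _) hΨs
    have hw0 : 0 ≤ ‖w‖ ^ 2 := sq_nonneg _
    have hconjre : (conj c * φ s).re = (c * conj (φ s)).re := by
      simp [Complex.mul_re]
    have hconjim : (conj c * φ s).im = - (c * conj (φ s)).im := by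
      simp [Complex.mul_im]; ring
    constructor
    · simp only [Complex.sub_im, Complex.add_im, Complex.mul_im, Complex.ofReal_im, Complex.ofReal_re,
        Complex.re_ofNat, Complex.im_ofNat, Complex.one_im, Complex.one_re]
      have := hconjim
      simp only [Complex.mul_im] at this
      linarith
    · simp only [Complex.sub_re, Complex.add_re, Complex.mul_re, Complex.ofReal_im, Complex.ofReal_re,
        Complex.re_ofNat, Complex.im_ofNat, Complex.one_im, Complex.one_re]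
      have h3 := hconjre
      simp only [Complex.mul_re] at h3
      have h4 : (c * conj (φ s)).re = c.re * (conj (φ s)).re - c.im * (conj (φ s)).im := by
        simp [Complex.mul_re]
      nlinarith [mul_le_of_le_one_left hw0 hΨsq]
  have h3 : P.E σ G = 2 + c * P.E σ (star φ) + conj (c * P.E σ (star φ)) := by
    simp only [hG, map_add, map_smul, smul_eq_mul, P.E_one σ hσ, mul_one, map_mul]
    congr 2
    have : φ = star (star φ) := by simp
    conv_lhs => rw [this]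
    rw [P.E_star σ hσ]
  rw [h3] at h2
  simp only [Complex.add_re, Complex.conj_re] at h2
  have h5 : (2 : ℂ).re = 2 := by norm_num
  rw [h5] at h2
  linarith

end CPData

/-! ### Singular vectors -/

lemma exists_singular [FiniteDimensional ℂ H] (T : H →L[ℂ] H) (hT : T ≠ 0) :
    ∃ x y : H, ‖x‖ = 1 ∧ ‖y‖ = 1 ∧ T x = ((‖T‖ : ℝ) : ℂ) • y ∧
      ContinuousLinearMap.adjoint T y = ((‖T‖ : ℝ) : ℂ) • x := by
  have : ProperSpace H := FiniteDimensional.proper ℂ H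
  have hτ : 0 < ‖T‖ := norm_pos_iff.mpr hT
  have hne : Nontrivial H := by
    by_contra h
    rw [not_nontrivial_iff_subsingleton] at h
    exact hT (Subsingleton.elim _ _)
  have hsph : IsCompact (Metric.sphere (0 : H) 1) := isCompact_sphere 0 1
  obtain ⟨v, hv⟩ := exists_ne (0 : H)
  have hne' : (Metric.sphere (0 : H) 1).Nonempty := by
    refine ⟨((‖v‖⁻¹ : ℝ) : ℂ) • v, ?_⟩
    have : ‖v‖ ≠ 0 := norm_ne_zero_iff.mpr hv
    simp [norm_smul, this]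
  obtain ⟨x, hx, hmax⟩ := hsph.exists_isMaxOn hne'
    (continuous_norm.comp T.continuous).continuousOn
  have hx1 : ‖x‖ = 1 := by simpa using hx
  have hle : ‖T‖ ≤ ‖T x‖ := by
    apply ContinuousLinearMap.opNorm_le_bound _ (norm_nonneg _)
    intro w
    by_cases hw : w = 0
    · simp [hw]
    have hw' : ‖w‖ ≠ 0 := norm_ne_zero_iff.mpr hw
    have hmem : ((‖w‖⁻¹ : ℝ) : ℂ) • w ∈ Metric.sphere (0 : H) 1 := by
      simp [norm_smul, hw']
    have := hmax hmem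
    have h2 : ‖w‖⁻¹ * ‖T w‖ ≤ ‖T x‖ := by
      have h3 : ‖T (((‖w‖⁻¹ : ℝ) : ℂ) • w)‖ ≤ ‖T x‖ := this
      rwa [map_smul, norm_smul, Complex.norm_real, norm_inv, norm_norm] at h3
    rw [inv_mul_le_iff₀ (by positivity)] at h2
    linarith
  have hTx : ‖T x‖ = ‖T‖ := le_antisymm (by simpa [hx1] using T.le_opNorm x) hle
  set τ := ‖T‖ with hτdef
  set y : H := ((τ⁻¹ : ℝ) : ℂ) • T x with hy
  have hy1 : ‖y‖ = 1 := by
    simp [hy, norm_smul, hTx, abs_of_pos hτ, hτ.ne']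
  have hTxy : T x = ((τ : ℝ) : ℂ) • y := by
    rw [hy, smul_smul]
    have : ((τ : ℝ) : ℂ) * ((τ⁻¹ : ℝ) : ℂ) = 1 := by
      rw [← Complex.ofReal_mul, mul_inv_cancel₀ hτ.ne']; simp
    rw [this, one_smul]
  set A := ContinuousLinearMap.adjoint T with hA
  have hAnorm : ‖A‖ = τ := by
    rw [hA]; exact ContinuousLinearMap.adjoint.norm_map T
  have key : A (T x) = ((τ ^ 2 : ℝ) : ℂ) • x := by
    have h0 : ‖A (T x) - ((τ ^ 2 : ℝ) : ℂ) • x‖ ^ 2 ≤ 0 := by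
      have h1 : ‖A (T x)‖ ≤ τ * τ := by
        calc ‖A (T x)‖ ≤ ‖A‖ * ‖T x‖ := A.le_opNorm _
          _ = τ * τ := by rw [hAnorm, hTx]
      have h2 : (inner ℂ (A (T x)) x).re = τ ^ 2 := by
        rw [hA, ContinuousLinearMap.adjoint_inner_left, inner_self_eq_norm_sq_to_K, hTx]
        norm_cast
      have h3 := @norm_sub_sq ℂ H _ _ _ (A (T x)) (((τ ^ 2 : ℝ) : ℂ) • x)
      rw [h3]
      have h4 : RCLike.re (inner ℂ (A (T x)) (((τ ^ 2 : ℝ) : ℂ) • x)) = τ ^ 2 * τ ^ 2 := by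
        rw [inner_smul_right]
        have : (((τ ^ 2 : ℝ) : ℂ) * inner ℂ (A (T x)) x) = ((τ ^ 2 : ℝ) : ℂ) * inner ℂ (A (T x)) x := rfl
        simp only [RCLike.re_to_complex, Complex.mul_re, Complex.ofReal_re, Complex.ofReal_im, zero_mul,
          sub_zero]
        rw [h2]
      rw [h4]
      have h5 : ‖((τ ^ 2 : ℝ) : ℂ) • x‖ = τ ^ 2 := by
        rw [norm_smul, hx1, mul_one, Complex.norm_real, Real.norm_of_nonneg (by positivity)]
      rw [h5]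
      have h6 : ‖A (T x)‖ ^ 2 ≤ (τ * τ) ^ 2 := pow_le_pow_left₀ (norm_nonneg _) h1 2
      nlinarith
    have h1 : ‖A (T x) - ((τ ^ 2 : ℝ) : ℂ) • x‖ = 0 := by
      have := sq_nonneg ‖A (T x) - ((τ ^ 2 : ℝ) : ℂ) • x‖
      nlinarith [norm_nonneg (A (T x) - ((τ ^ 2 : ℝ) : ℂ) • x)]
    exact sub_eq_zero.mp (norm_eq_zero.mp h1)
  refine ⟨x, y, hx1, hy1, hTxy, ?_⟩
  rw [hy, map_smul, key, smul_smul]
  congr 1
  rw [← Complex.ofReal_mul]
  congr 1
  field_simp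

/-! ### The extremal configuration -/

/-- An extremal configuration: a function `f` in the unit ball with singular vectors `x, y`. -/
structure Ext where
  f : C(X, ℂ) × (H →L[ℂ] H)
  hf : f ∈ P.alg
  hf1 : ‖f.1‖ ≤ 1
  τ : ℝ
  hτ : 0 < τ
  x : H
  y : H
  hx : ‖x‖ = 1
  hy : ‖y‖ = 1
  hTx : f.2 x = (τ : ℂ) • y
  hTy : ContinuousLinearMap.adjoint f.2 y = (τ : ℂ) • x

namespace Ext

variable {P} (Z : Ext P)

/-- The state `u ↦ ⟨u(A)x, x⟩`. -/
noncomputable def ell (u : C(X, ℂ) × (H →L[ℂ] H)) : ℂ := inner ℂ Z.x (u.2 Z.x)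

lemma inner_xx : inner ℂ Z.x Z.x = (1 : ℂ) := by
  rw [inner_self_eq_norm_sq_to_K, Z.hx]; simp

lemma inner_yy : inner ℂ Z.y Z.y = (1 : ℂ) := by
  rw [inner_self_eq_norm_sq_to_K, Z.hy]; simp

lemma inner_y_f (u : C(X, ℂ) × (H →L[ℂ] H)) :
    inner ℂ Z.y (Z.f.2 (u.2 Z.x)) = (Z.τ : ℂ) * Z.ell u := by
  rw [← ContinuousLinearMap.adjoint_inner_left, Z.hTy, inner_smul_left, Complex.conj_ofReal]; rfl

lemma inner_y_mul (u : C(X, ℂ) × (H →L[ℂ] H)) :
    inner ℂ Z.y ((Z.f * u).2 Z.x) = (Z.τ : ℂ) * Z.ell u := by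
  simpa using Z.inner_y_f u

lemma tau_ne : (Z.τ : ℂ) ≠ 0 := by exact_mod_cast Z.hτ.ne'

/-- `⟨u(A) y, y⟩ = ⟨u(A) x, x⟩`. -/
lemma inner_yy_eq {u : C(X, ℂ) × (H →L[ℂ] H)} (hu : u ∈ P.alg) :
    inner ℂ Z.y (u.2 Z.y) = Z.ell u := by
  have h1 : u.2 (Z.f.2 Z.x) = Z.f.2 (u.2 Z.x) := by
    have := P.comm u hu Z.f Z.hf
    simpa using congrArg (fun B : H →L[ℂ] H => B Z.x) this
  have h2 := Z.inner_y_f u
  rw [← h1, Z.hTx, map_smul, inner_smul_right] at h2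
  exact mul_left_cancel₀ Z.tau_ne h2

/-- `⟨u(A) y, x⟩ = ⟨(u f)(A) x, x⟩ / τ`. -/
lemma inner_xy_eq (u : C(X, ℂ) × (H →L[ℂ] H)) :
    (Z.τ : ℂ) * inner ℂ Z.x (u.2 Z.y) = Z.ell (u * Z.f) := by
  simp only [ell, Prod.snd_mul, ContinuousLinearMap.mul_apply, Z.hTx, map_smul, inner_smul_right]

end Ext

lemma norm_one_sub_le (κ : ℂ) (ε B : ℝ) (hε : 0 ≤ ε) (hκ : ‖κ‖ ≤ B) (hεB : ε * B ≤ 1 / 2) :
    ‖(1 : ℂ) - (ε : ℂ) * κ‖ ≤ 1 - ε * κ.re + ε ^ 2 * B ^ 2 := by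
  have hB : 0 ≤ B := (norm_nonneg _).trans hκ
  have hre : κ.re ≤ B := (Complex.re_le_norm κ).trans hκ
  have him : κ.im ^ 2 ≤ B ^ 2 := by
    have := Complex.abs_im_le_norm κ
    have h2 : |κ.im| ≤ B := this.trans hκ
    calc κ.im ^ 2 = |κ.im| ^ 2 := (sq_abs _).symm
      _ ≤ B ^ 2 := pow_le_pow_left₀ (abs_nonneg _) h2 2
  have ha : 1 / 2 ≤ 1 - ε * κ.re := by nlinarith
  have hsq : ‖(1 : ℂ) - (ε : ℂ) * κ‖ ^ 2 = (1 - ε * κ.re) ^ 2 + ε ^ 2 * κ.im ^ 2 := by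
    rw [← Complex.normSq_eq_norm_sq, Complex.normSq_apply]
    simp
    ring
  have h3 : ‖(1 : ℂ) - (ε : ℂ) * κ‖ ^ 2 ≤ (1 - ε * κ.re + ε ^ 2 * B ^ 2) ^ 2 := by
    rw [hsq]
    have hε2 : 0 ≤ ε ^ 2 * B ^ 2 := by positivity
    have h5 : ε ^ 2 * κ.im ^ 2 ≤ ε ^ 2 * B ^ 2 := by
      exact mul_le_mul_of_nonneg_left him (by positivity)
    nlinarith
  have hnn : 0 ≤ 1 - ε * κ.re + ε ^ 2 * B ^ 2 := by nlinarith [sq_nonneg (ε * B)]
  exact abs_le_of_sq_le_sq' h3 hnn |>.2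

section FirstVariation

variable {P} (Z : Ext P) {K : ℝ} (hK : ∀ u ∈ P.alg, ‖u.2‖ ≤ K * ‖u.1‖)

include hK in
/-- First variation at the extremal function. -/
lemma first_variation {Q κ : C(X, ℂ) × (H →L[ℂ] H)} (hQ : Q ∈ P.alg) (hκ : κ ∈ P.alg)
    {ε B : ℝ} (hε : 0 < ε) (hκB : ‖κ.1‖ ≤ B) (hεB : ε * B ≤ 1 / 2) (hK0 : 0 ≤ K)
    (hle : ∀ σ, ‖Q.1 σ‖ ≤ (κ.1 σ).re) :
    (inner ℂ Z.y (Q.2 Z.x)).re ≤ Z.τ * (Z.ell κ).re + (K - Z.τ) / ε + K * ε * B ^ 2 := by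
  set v : C(X, ℂ) × (H →L[ℂ] H) := Z.f * (1 - (ε : ℂ) • κ) + (ε : ℂ) • Q with hv
  have hvmem : v ∈ P.alg :=
    P.alg.add_mem (P.alg.mul_mem Z.hf (P.alg.sub_mem P.alg.one_mem (P.alg.smul_mem hκ _)))
      (P.alg.smul_mem hQ _)
  have hvnorm : ‖v.1‖ ≤ 1 + ε ^ 2 * B ^ 2 := by
    rw [ContinuousMap.norm_le _ (by positivity)]
    intro σ
    have hfσ : ‖Z.f.1 σ‖ ≤ 1 := (ContinuousMap.norm_coe_le_norm _ σ).trans Z.hf1
    have hκσ : ‖κ.1 σ‖ ≤ B := (ContinuousMap.norm_coe_le_norm _ σ).trans hκB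
    have h1 := norm_one_sub_le (κ.1 σ) ε B hε.le hκσ hεB
    have hval : v.1 σ = Z.f.1 σ * ((1 : ℂ) - (ε : ℂ) * κ.1 σ) + (ε : ℂ) * Q.1 σ := by
      simp [hv]
    rw [hval]
    calc ‖Z.f.1 σ * ((1 : ℂ) - (ε : ℂ) * κ.1 σ) + (ε : ℂ) * Q.1 σ‖
        ≤ ‖Z.f.1 σ‖ * ‖(1 : ℂ) - (ε : ℂ) * κ.1 σ‖ + ε * ‖Q.1 σ‖ := by
          refine (norm_add_le _ _).trans ?_
          rw [norm_mul, norm_mul, Complex.norm_real, Real.norm_of_nonneg hε.le]
      _ ≤ 1 * (1 - ε * (κ.1 σ).re + ε ^ 2 * B ^ 2) + ε * (κ.1 σ).re := by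
          gcongr
          · exact hle σ
      _ = 1 + ε ^ 2 * B ^ 2 := by ring
  have h2 : ‖v.2‖ ≤ K * (1 + ε ^ 2 * B ^ 2) :=
    (hK v hvmem).trans (mul_le_mul_of_nonneg_left hvnorm hK0)
  have h3 : (inner ℂ Z.y (v.2 Z.x)).re ≤ K * (1 + ε ^ 2 * B ^ 2) := by
    have h4 : ‖inner ℂ Z.y (v.2 Z.x)‖ ≤ ‖v.2‖ := by
      calc ‖inner ℂ Z.y (v.2 Z.x)‖ ≤ ‖Z.y‖ * ‖v.2 Z.x‖ := norm_inner_le_norm _ _
        _ ≤ 1 * (‖v.2‖ * 1) := by
            rw [Z.hy]
            gcongr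
            simpa [Z.hx] using v.2.le_opNorm Z.x
        _ = ‖v.2‖ := by ring
    exact (Complex.re_le_norm _).trans (h4.trans h2)
  have h5 : inner ℂ Z.y (v.2 Z.x)
      = (Z.τ : ℂ) - (ε : ℂ) * ((Z.τ : ℂ) * Z.ell κ) + (ε : ℂ) * inner ℂ Z.y (Q.2 Z.x) := by
    have h6 := Z.inner_y_f κ
    simp only [hv, Prod.snd_add, Prod.snd_mul, Prod.snd_sub, Prod.snd_one, Prod.smul_snd,
      ContinuousLinearMap.add_apply, ContinuousLinearMap.mul_apply, ContinuousLinearMap.sub_apply,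
      ContinuousLinearMap.one_apply, ContinuousLinearMap.smul_apply, map_sub, map_smul,
      inner_add_right, inner_sub_right, inner_smul_right, h6]
    rw [Z.hTx, inner_smul_right, Z.inner_yy]
    simp
  rw [h5] at h3
  simp only [Complex.add_re, Complex.sub_re, Complex.ofReal_re, Complex.mul_re, Complex.ofReal_im,
    zero_mul, sub_zero] at h3
  have h7 : (inner ℂ Z.y (Q.2 Z.x)).re ≤ Z.τ * (Z.ell κ).re + (K - Z.τ) / ε + K * ε * B ^ 2 := by
    have h8 : ε * (inner ℂ Z.y (Q.2 Z.x)).re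
        ≤ ε * (Z.τ * (Z.ell κ).re + (K - Z.τ) / ε + K * ε * B ^ 2) := by
      have h9 : ε * ((K - Z.τ) / ε) = K - Z.τ := by field_simp
      have h10 : ε * (Z.τ * (Z.ell κ).re + (K - Z.τ) / ε + K * ε * B ^ 2)
          = ε * (Z.τ * (Z.ell κ).re) + (K - Z.τ) + K * ε ^ 2 * B ^ 2 := by
        rw [mul_add, mul_add, h9]; ring
      rw [h10]
      nlinarith
    exact le_of_mul_le_mul_left h8 hε
  exact h7

include hK in
/-- Phase version of `first_variation`. -/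
lemma first_variation_norm {Q κ : C(X, ℂ) × (H →L[ℂ] H)} (hQ : Q ∈ P.alg) (hκ : κ ∈ P.alg)
    {ε B : ℝ} (hε : 0 < ε) (hκB : ‖κ.1‖ ≤ B) (hεB : ε * B ≤ 1 / 2) (hK0 : 0 ≤ K)
    (hle : ∀ σ, ‖Q.1 σ‖ ≤ (κ.1 σ).re) :
    ‖inner ℂ Z.y (Q.2 Z.x)‖ ≤ Z.τ * (Z.ell κ).re + (K - Z.τ) / ε + K * ε * B ^ 2 := by
  set w := inner ℂ Z.y (Q.2 Z.x) with hw
  obtain ⟨c, hc1, hc2⟩ : ∃ c : ℂ, ‖c‖ = 1 ∧ (c * w).re = ‖w‖ := by
    by_cases h : w = 0
    · exact ⟨1, by simp, by simp [h]⟩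
    · have hn : (‖w‖ : ℂ) ≠ 0 := by simpa using h
      refine ⟨conj w / ‖w‖, ?_, ?_⟩
      · simp [norm_ne_zero_iff.mpr h]
      · have : conj w / ‖w‖ * w = ‖w‖ := by
          rw [div_mul_eq_mul_div, Complex.conj_mul', pow_two, mul_div_assoc, div_self hn, mul_one]
        rw [this]; simp
  have h := first_variation Z hK (P.alg.smul_mem hQ c) hκ hε hκB hεB hK0 (by
    intro σ
    simpa [norm_mul, hc1] using hle σ)
  have hval : inner ℂ Z.y (((c • Q : C(X, ℂ) × (H →L[ℂ] H))).2 Z.x) = c * w := by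
    simp [hw, inner_smul_right]
  rw [hval, hc2] at h
  exact h

end FirstVariation

/-! ### Cauchy-Schwarz for the operator valued measure -/

section Form

/-- The sesquilinear form `∫ ⟨W(t)(u₁ x + u₂ y), v₁ x + v₂ y⟩`. -/
noncomputable def form (x y : H) (u v : C(X, ℂ) × C(X, ℂ)) : ℂ :=
  inner ℂ x (P.S (star u.1 * v.1) x) + inner ℂ y (P.S (star u.2 * v.2) y)
    + inner ℂ y (P.S (star u.2 * v.1) x) + inner ℂ x (P.S (star u.1 * v.2) y)

lemma inner_S_conj (a b : H) (F : C(X, ℂ)) :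
    conj (inner ℂ a (P.S F b)) = inner ℂ b (P.S (star F) a) := by
  rw [P.S_star, ContinuousLinearMap.adjoint_inner_right, inner_conj_symm]

lemma form_conj (x y : H) (u v : C(X, ℂ) × C(X, ℂ)) :
    conj (form P x y u v) = form P x y v u := by
  simp only [form, map_add, inner_S_conj, star_mul, star_star]
  first | done | ring

lemma form_re_nonneg (x y : H) (u : C(X, ℂ) × C(X, ℂ)) : 0 ≤ (form P x y u u).re :=
  P.S_pos u.1 u.2 x y

lemma form_add_smul (x y : H) (u v : C(X, ℂ) × C(X, ℂ)) (l : ℂ) :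
    form P x y (u + l • v) (u + l • v) = form P x y u u + l * form P x y u v
      + conj l * form P x y v u + (l * conj l) * form P x y v v := by
  simp only [form, Prod.fst_add, Prod.snd_add, Prod.smul_fst, Prod.smul_snd, star_add, star_smul,
    add_mul, mul_add, smul_mul_assoc, mul_smul_comm, map_add, map_smul,
    inner_add_right, inner_smul_right, smul_eq_mul, ContinuousLinearMap.add_apply,
    ContinuousLinearMap.smul_apply, Complex.star_def]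
  ring

lemma form_cs (x y : H) (u v : C(X, ℂ) × C(X, ℂ)) (r : ℝ) (hr : 0 < r) :
    2 * r * ‖form P x y u v‖ ≤ (form P x y u u).re + r ^ 2 * (form P x y v v).re := by
  set w := form P x y u v with hw
  obtain ⟨c, hc1, hc2⟩ : ∃ c : ℂ, ‖c‖ = 1 ∧ (c * w).re = ‖w‖ := by
    by_cases h : w = 0
    · exact ⟨1, by simp, by simp [h]⟩
    · have hn : (‖w‖ : ℂ) ≠ 0 := by simpa using h
      refine ⟨conj w / ‖w‖, ?_, ?_⟩
      · simp [norm_ne_zero_iff.mpr h]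
      · have : conj w / ‖w‖ * w = ‖w‖ := by
          rw [div_mul_eq_mul_div, Complex.conj_mul', pow_two, mul_div_assoc, div_self hn, mul_one]
        rw [this]; simp
  have h0 := form_re_nonneg P x y (u + (-(r : ℂ) * c) • v)
  rw [form_add_smul, ← form_conj P x y u v] at h0
  set l : ℂ := -(r : ℂ) * c with hl
  have h1 : (l * w).re = - r * ‖w‖ := by
    rw [hl, mul_assoc, ← Complex.ofReal_neg, Complex.re_ofReal_mul, hc2]
  have h2 : (conj l * conj w).re = - r * ‖w‖ := by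
    rw [← map_mul, Complex.conj_re, h1]
  have h3 : l * conj l = ((r ^ 2 : ℝ) : ℂ) := by
    rw [mul_conj_eq]
    congr 2
    simp [hl, hc1, abs_of_pos hr]
  simp only [Complex.add_re] at h0
  rw [h1, h2, h3, Complex.re_ofReal_mul] at h0
  linarith

end Form

/-- generic density principle -/
lemma forall_of_dense {F G : X → ℝ} (hF : Continuous F) (hG : Continuous G)
    (h : ∀ σ ∈ P.D, F σ ≤ G σ) (σ : X) : F σ ≤ G σ := by
  have hcl : IsClosed {σ | F σ ≤ G σ} := isClosed_le hF hG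
  have hsub : P.D ⊆ {σ | F σ ≤ G σ} := h
  have := hcl.closure_subset_iff.mpr hsub
  rw [P.D_dense.closure_eq] at this
  exact this (Set.mem_univ σ)

section CS

variable {P} (Z : Ext P)

/-- the defect `η = 2 - Re ⟨S f x, y⟩`. -/
noncomputable def Ext.eta : ℝ := 2 - (inner ℂ Z.y (P.S Z.f.1 Z.x)).re

lemma Ext.form_v_le :
    (form P Z.x Z.y (Z.f.1, -1) (Z.f.1, -1)).re ≤ 2 * Z.eta := by
  have h1 := P.S_le Z.f.1 Z.x Z.hf1
  rw [Z.hx] at h1
  have h2 : inner ℂ Z.y (P.S 1 Z.y) = (2 : ℂ) := by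
    rw [P.S_one]
    simp [inner_smul_right, Z.hy]
  have h3 := inner_S_conj P Z.y Z.x Z.f.1
  simp only [form, star_neg, star_one, neg_mul, one_mul, mul_neg, neg_neg, map_neg, mul_one,
    ContinuousLinearMap.neg_apply, inner_neg_right, Complex.add_re, Complex.neg_re, Ext.eta]
  rw [h2, ← h3]
  simp only [Complex.conj_re, Complex.re_ofNat]
  nlinarith

lemma Ext.eta_nonneg : 0 ≤ Z.eta := by
  have h := form_re_nonneg P Z.x Z.y (Z.f.1, -1)
  have := Z.form_v_le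
  linarith

lemma Ext.cs_x (F : C(X, ℂ)) (hF : ‖F‖ ≤ 1) (s : ℝ) (hs : 0 < s) :
    ‖inner ℂ Z.y (P.S F Z.x) - inner ℂ Z.x (P.S (star Z.f.1 * F) Z.x)‖ ≤ 1 / s + s * Z.eta := by
  have h := form_cs P Z.x Z.y (F, 0) (Z.f.1, -1) s hs
  have hval : form P Z.x Z.y (Z.f.1, -1) (F, 0)
      = -(inner ℂ Z.y (P.S F Z.x) - inner ℂ Z.x (P.S (star Z.f.1 * F) Z.x)) := by
    simp only [form, star_neg, star_one, neg_mul, one_mul, mul_zero, map_zero, map_neg,
      ContinuousLinearMap.neg_apply, ContinuousLinearMap.zero_apply, inner_neg_right, inner_zero_right]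
    ring
  have hn : ‖form P Z.x Z.y (F, 0) (Z.f.1, -1)‖
      = ‖inner ℂ Z.y (P.S F Z.x) - inner ℂ Z.x (P.S (star Z.f.1 * F) Z.x)‖ := by
    rw [← Complex.norm_conj, form_conj, hval, norm_neg]
  rw [hn] at h
  have h1 : (form P Z.x Z.y (F, 0) (F, 0)).re ≤ 2 := by
    have := P.S_le F Z.x hF
    rw [Z.hx] at this
    simp only [form, star_zero, zero_mul, mul_zero, map_zero, ContinuousLinearMap.zero_apply,
      inner_zero_right, add_zero]
    linarith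
  have h2 := Z.form_v_le
  have h3 : 2 * s * ‖inner ℂ Z.y (P.S F Z.x) - inner ℂ Z.x (P.S (star Z.f.1 * F) Z.x)‖
      ≤ 2 + s ^ 2 * (2 * Z.eta) := by
    have := mul_le_mul_of_nonneg_left h2 (sq_nonneg s)
    linarith
  have h4 : (1 / s + s * Z.eta) * (2 * s) = 2 + s ^ 2 * (2 * Z.eta) := by
    field_simp
  rw [← h4] at h3
  have h5 : 0 < 2 * s := by positivity
  rw [mul_comm] at h3
  exact le_of_mul_le_mul_right h3 h5

lemma Ext.cs_y (F : C(X, ℂ)) (hF : ‖F‖ ≤ 1) (s : ℝ) (hs : 0 < s) :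
    ‖inner ℂ Z.y (P.S (F * Z.f.1) Z.x) - inner ℂ Z.y (P.S F Z.y)‖ ≤ 1 / s + s * Z.eta := by
  have h := form_cs P Z.x Z.y (0, star F) (Z.f.1, -1) s hs
  have hval : form P Z.x Z.y (0, star F) (Z.f.1, -1)
      = inner ℂ Z.y (P.S (F * Z.f.1) Z.x) - inner ℂ Z.y (P.S F Z.y) := by
    simp only [form, star_star, star_zero, zero_mul, mul_neg, mul_one, map_zero, map_neg,
      ContinuousLinearMap.neg_apply, ContinuousLinearMap.zero_apply, inner_neg_right, inner_zero_right]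
    ring
  rw [hval] at h
  have h1 : (form P Z.x Z.y (0, star F) (0, star F)).re ≤ 2 := by
    have := P.S_le (star F) Z.y (by rwa [norm_star])
    rw [Z.hy] at this
    simp only [form, star_zero, zero_mul, mul_zero, map_zero, ContinuousLinearMap.zero_apply,
      inner_zero_right, add_zero, zero_add]
    linarith
  have h2 := Z.form_v_le
  have h3 : 2 * s * ‖inner ℂ Z.y (P.S (F * Z.f.1) Z.x) - inner ℂ Z.y (P.S F Z.y)‖
      ≤ 2 + s ^ 2 * (2 * Z.eta) := by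
    have := mul_le_mul_of_nonneg_left h2 (sq_nonneg s)
    linarith
  have h4 : (1 / s + s * Z.eta) * (2 * s) = 2 + s ^ 2 * (2 * Z.eta) := by
    field_simp
  rw [← h4] at h3
  have h5 : 0 < 2 * s := by positivity
  rw [mul_comm] at h3
  exact le_of_mul_le_mul_right h3 h5

end CS

/-! ### The main inequality -/

section Main

variable {P} (Z : Ext P) {K : ℝ} (hK : ∀ u ∈ P.alg, ‖u.2‖ ≤ K * ‖u.1‖) (hK0 : 0 ≤ K)

include hK hK0 in
/-- The main inequality, for an extremal configuration. -/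
theorem core_ineq {s t ε : ℝ} (hs : 0 < s) (ht : 0 < t) (hε : 0 < ε)
    (hεB : ε * (2 * t + 1 / (2 * t)) ≤ 1 / 2) :
    ∃ a : ℂ, Z.τ * ‖a‖ ≤ K ∧ Z.τ + a.re / Z.τ ≤ 2 ∧
      (Z.τ - 1) * (Z.τ + 1 / Z.τ) * ‖a‖ ≤
        (Z.τ + 1) * (1 / s + s * (2 - Z.τ - a.re / Z.τ) + (t * (1 + a.re) + 1 / (2 * t)))
          + (1 + 1 / Z.τ) * ((K - Z.τ) / ε + K * ε * (2 * t + 1 / (2 * t)) ^ 2) := by
  have hτ := Z.hτ
  have hτc := Z.tau_ne
  obtain ⟨g, hg, hgS, hgE⟩ := P.theta Z.f Z.hf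
  have hf1 : ∀ σ, ‖Z.f.1 σ‖ ≤ 1 := fun σ => (ContinuousMap.norm_coe_le_norm _ σ).trans Z.hf1
  -- bound on g
  have hg1 : ∀ σ, ‖g.1 σ‖ ≤ 1 := by
    intro σ
    apply forall_of_dense P (F := fun σ => ‖g.1 σ‖) (G := fun _ => 1) (by fun_prop) (by fun_prop)
    intro σ hσ
    rw [hgE σ hσ]
    exact P.E_norm_le_one hσ _ (by rw [norm_star]; exact Z.hf1)
  have hg1' : ‖g.1‖ ≤ 1 := (ContinuousMap.norm_le _ zero_le_one).mpr hg1
  set z : C(X, ℂ) × (H →L[ℂ] H) := g * Z.f with hz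
  have hzmem : z ∈ P.alg := P.alg.mul_mem hg Z.hf
  have hz1 : ∀ σ, ‖z.1 σ‖ ≤ 1 := by
    intro σ
    have : z.1 σ = g.1 σ * Z.f.1 σ := by simp [hz]
    rw [this, norm_mul]
    exact mul_le_one₀ (hg1 σ) (norm_nonneg _) (hf1 σ)
  have hz1' : ‖z.1‖ ≤ 1 := (ContinuousMap.norm_le _ zero_le_one).mpr hz1
  obtain ⟨θz, hθz, hθzS, hθzE⟩ := P.theta z hzmem
  obtain ⟨θzf, hθzf, hθzfS, hθzfE⟩ := P.theta (z * Z.f) (P.alg.mul_mem hzmem Z.hf)
  obtain ⟨θg, hθg, hθgS, hθgE⟩ := P.theta g hg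
  set a : ℂ := Z.ell z with ha
  set bc : ℂ := Z.ell θz with hbc
  set p1 : ℂ := Z.ell (Z.f * θzf) with hp1
  set e0 : ℂ := inner ℂ Z.y (θg.2 Z.x) with he0
  -- the functions Q1, Q2 and the majorant
  set Q1 : C(X, ℂ) × (H →L[ℂ] H) := Z.f * θzf + θz with hQ1
  set Q2 : C(X, ℂ) × (H →L[ℂ] H) := θg + Z.f * θz with hQ2
  have hQ1mem : Q1 ∈ P.alg := P.alg.add_mem (P.alg.mul_mem Z.hf hθzf) hθz
  have hQ2mem : Q2 ∈ P.alg := P.alg.add_mem hθg (P.alg.mul_mem Z.hf hθz)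
  -- pointwise flips
  have hflip1 : ∀ σ, ‖Q1.1 σ‖ ^ 2 ≤ 2 + 2 * (Z.f.1 σ * g.1 σ).re := by
    intro σ
    apply forall_of_dense P (F := fun σ => ‖Q1.1 σ‖ ^ 2) (G := fun σ => 2 + 2 * (Z.f.1 σ * g.1 σ).re)
      (by fun_prop) (by
        have : Continuous fun σ => (Z.f.1 σ * g.1 σ).re :=
          Complex.continuous_re.comp (Z.f.1.continuous.mul g.1.continuous)
        fun_prop)
    intro σ hσ
    have h := P.E_flip hσ (star z.1) Z.f.1 (by rwa [norm_star]) Z.hf1 (Z.f.1 σ) (hf1 σ)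
    rw [← hgE σ hσ] at h
    have hval : Q1.1 σ = P.E σ (star z.1 * ((1 : C(X, ℂ)) + Z.f.1 σ • star Z.f.1)) := by
      have h1 : Q1.1 σ = Z.f.1 σ * θzf.1 σ + θz.1 σ := by simp [hQ1]
      rw [h1, hθzfE σ hσ, hθzE σ hσ]
      have h2 : star z.1 * ((1 : C(X, ℂ)) + Z.f.1 σ • star Z.f.1)
          = star z.1 + Z.f.1 σ • star ((z * Z.f).1) := by
        simp only [Prod.fst_mul, star_mul', mul_add, mul_one, mul_smul_comm]
      rw [h2, map_add, map_smul, smul_eq_mul, add_comm]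
    rw [hval]
    exact h
  have hflip2 : ∀ σ, ‖Q2.1 σ‖ ^ 2 ≤ 2 + 2 * (Z.f.1 σ * g.1 σ).re := by
    intro σ
    apply forall_of_dense P (F := fun σ => ‖Q2.1 σ‖ ^ 2) (G := fun σ => 2 + 2 * (Z.f.1 σ * g.1 σ).re)
      (by fun_prop) (by
        have : Continuous fun σ => (Z.f.1 σ * g.1 σ).re :=
          Complex.continuous_re.comp (Z.f.1.continuous.mul g.1.continuous)
        fun_prop)
    intro σ hσ
    have h := P.E_flip hσ (star g.1) Z.f.1 (by rwa [norm_star]) Z.hf1 (Z.f.1 σ) (hf1 σ)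
    rw [← hgE σ hσ] at h
    have hval : Q2.1 σ = P.E σ (star g.1 * ((1 : C(X, ℂ)) + Z.f.1 σ • star Z.f.1)) := by
      have h1 : Q2.1 σ = θg.1 σ + Z.f.1 σ * θz.1 σ := by simp [hQ2]
      rw [h1, hθgE σ hσ, hθzE σ hσ]
      have h2 : star g.1 * ((1 : C(X, ℂ)) + Z.f.1 σ • star Z.f.1)
          = star g.1 + Z.f.1 σ • star z.1 := by
        simp only [hz, Prod.fst_mul, star_mul', mul_add, mul_one, mul_smul_comm]
      rw [h2, map_add, map_smul, smul_eq_mul]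
    rw [hval]
    exact h
  -- the majorant
  set κ : C(X, ℂ) × (H →L[ℂ] H) := (t : ℂ) • (1 + z) + ((1 / (2 * t) : ℝ) : ℂ) • 1 with hκ
  have hκmem : κ ∈ P.alg :=
    P.alg.add_mem (P.alg.smul_mem (P.alg.add_mem P.alg.one_mem hzmem) _)
      (P.alg.smul_mem P.alg.one_mem _)
  have hκval : ∀ σ, κ.1 σ = (t : ℂ) * (1 + z.1 σ) + ((1 / (2 * t) : ℝ) : ℂ) := by
    intro σ
    simp only [hκ, Prod.fst_add, Prod.smul_fst, Prod.fst_one, ContinuousMap.add_apply,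
      ContinuousMap.smul_apply, ContinuousMap.one_apply, smul_eq_mul, mul_one]
  have hκre : ∀ σ, (κ.1 σ).re = t * (1 + (z.1 σ).re) + 1 / (2 * t) := by
    intro σ
    rw [hκval, Complex.add_re, Complex.re_ofReal_mul, Complex.add_re, Complex.one_re,
      Complex.ofReal_re]
  have hmaj : ∀ Q : C(X, ℂ) × (H →L[ℂ] H),
      (∀ σ, ‖Q.1 σ‖ ^ 2 ≤ 2 + 2 * (Z.f.1 σ * g.1 σ).re) → ∀ σ, ‖Q.1 σ‖ ≤ (κ.1 σ).re := by
    intro Q hQ σ
    rw [hκre]
    have h1 := hQ σ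
    have h2 : Z.f.1 σ * g.1 σ = z.1 σ := by simp [hz, mul_comm]
    rw [h2] at h1
    have h3 : -1 ≤ (z.1 σ).re := by
      have := Complex.abs_re_le_norm (z.1 σ)
      have h4 := hz1 σ
      have := abs_le.mp (this.trans h4)
      exact this.1
    set ω := 1 + (z.1 σ).re with hω
    have hω0 : 0 ≤ ω := by linarith
    have h5 : ‖Q.1 σ‖ ^ 2 ≤ (t * ω + 1 / (2 * t)) ^ 2 := by
      have h6 : (t * ω + 1 / (2 * t)) ^ 2 = (t * ω - 1 / (2 * t)) ^ 2 + 2 * ω := by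
        have hc : t * (1 / (2 * t)) = 1 / 2 := by field_simp
        have h7 : (t * ω + 1 / (2 * t)) ^ 2
            = (t * ω - 1 / (2 * t)) ^ 2 + 4 * ω * (t * (1 / (2 * t))) := by ring
        rw [h7, hc]; ring
      rw [h6]
      nlinarith [sq_nonneg (t * ω - 1 / (2 * t))]
    exact (abs_le_of_sq_le_sq' h5 (by positivity)).2
  set B : ℝ := 2 * t + 1 / (2 * t) with hB
  have hκB : ‖κ.1‖ ≤ B := by
    rw [ContinuousMap.norm_le _ (by positivity)]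
    intro σ
    rw [hκval]
    calc ‖(t : ℂ) * (1 + z.1 σ) + ((1 / (2 * t) : ℝ) : ℂ)‖
        ≤ ‖(t : ℂ) * (1 + z.1 σ)‖ + ‖((1 / (2 * t) : ℝ) : ℂ)‖ := norm_add_le _ _
      _ ≤ 2 * t + 1 / (2 * t) := by
        rw [norm_mul, Complex.norm_real, Complex.norm_real, Real.norm_of_nonneg ht.le,
          Real.norm_of_nonneg (by positivity)]
        have h1 : ‖1 + z.1 σ‖ ≤ 2 := by
          calc ‖1 + z.1 σ‖ ≤ ‖(1 : ℂ)‖ + ‖z.1 σ‖ := norm_add_le _ _
            _ ≤ 2 := by rw [norm_one]; linarith [hz1 σ]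
        nlinarith
  have hellκ : (Z.ell κ).re = t * (1 + a.re) + 1 / (2 * t) := by
    have : Z.ell κ = (t : ℂ) * (1 + a) + ((1 / (2 * t) : ℝ) : ℂ) := by
      simp only [Ext.ell, hκ, ha, Prod.snd_add, Prod.smul_snd, Prod.snd_one,
        ContinuousLinearMap.add_apply, ContinuousLinearMap.smul_apply,
        ContinuousLinearMap.one_apply, inner_add_right, inner_smul_right, Z.inner_xx]
      ring
    rw [this]
    simp
  set err : ℝ := (K - Z.τ) / ε + K * ε * B ^ 2 with herr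
  set Ebar : ℝ := t * (1 + a.re) + 1 / (2 * t) with hEbar
  -- bounds for L1, L2
  have hL2 : ‖inner ℂ Z.y (Q2.2 Z.x)‖ ≤ Z.τ * Ebar + err := by
    have := first_variation_norm Z hK hQ2mem hκmem hε hκB hεB hK0 (hmaj Q2 hflip2)
    rw [hellκ] at this
    rw [herr]; linarith
  have hL1 : Z.τ * ‖Z.ell Q1‖ ≤ Z.τ * Ebar + err := by
    have hnorm : ∀ σ, ‖(Z.f * Q1).1 σ‖ ≤ (κ.1 σ).re := by
      intro σ
      have h1 : (Z.f * Q1).1 σ = Z.f.1 σ * Q1.1 σ := by simp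
      rw [h1, norm_mul]
      have := hmaj Q1 hflip1 σ
      calc ‖Z.f.1 σ‖ * ‖Q1.1 σ‖ ≤ 1 * ‖Q1.1 σ‖ := by
            gcongr
            exact hf1 σ
        _ ≤ (κ.1 σ).re := by linarith
    have := first_variation_norm Z hK (P.alg.mul_mem Z.hf hQ1mem) hκmem hε hκB hεB hK0 hnorm
    rw [hellκ, Z.inner_y_mul, norm_mul, Complex.norm_real, Real.norm_of_nonneg hτ.le] at this
    rw [herr]; linarith
  -- the values
  have hxy_g : inner ℂ Z.x (g.2 Z.y) = a / (Z.τ : ℂ) := by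
    have := Z.inner_xy_eq g
    rw [eq_div_iff hτc, mul_comm]
    exact this
  have hr : inner ℂ Z.y (P.S Z.f.1 Z.x) = (Z.τ : ℂ) + conj a / (Z.τ : ℂ) := by
    rw [hgS]
    simp only [ContinuousLinearMap.add_apply, inner_add_right, Z.hTx, inner_smul_right, Z.inner_yy,
      mul_one]
    rw [ContinuousLinearMap.adjoint_inner_right, ← inner_conj_symm, hxy_g]
    simp
  have heta : Z.eta = 2 - Z.τ - a.re / Z.τ := by
    simp only [Ext.eta, hr, Complex.add_re, Complex.ofReal_re]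
    have : (conj a / (Z.τ : ℂ)).re = a.re / Z.τ := by
      rw [Complex.div_ofReal_re]; simp
    rw [this]; ring
  have heta0 := Z.eta_nonneg
  -- X'
  have hXp : inner ℂ Z.y (P.S (z.1 * Z.f.1) Z.x) - inner ℂ Z.y (P.S z.1 Z.y)
      = (Z.τ : ℂ) * a + conj p1 / (Z.τ : ℂ) - a - conj bc := by
    have h1 : P.S (z.1 * Z.f.1) = (z * Z.f).2 + ContinuousLinearMap.adjoint θzf.2 := hθzfS
    rw [h1, hθzS]
    simp only [ContinuousLinearMap.add_apply, inner_add_right]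
    have h2 : (z * Z.f).2 = (Z.f * z).2 := by
      simp only [Prod.snd_mul]; exact P.comm z hzmem Z.f Z.hf
    rw [h2, Z.inner_y_mul, ContinuousLinearMap.adjoint_inner_right,
      ContinuousLinearMap.adjoint_inner_right, Z.inner_yy_eq hzmem, ← ha]
    have h3 : inner ℂ (θzf.2 Z.y) Z.x = conj (inner ℂ Z.x (θzf.2 Z.y)) := (inner_conj_symm _ _).symm
    have h4 : inner ℂ (θz.2 Z.y) Z.y = conj (inner ℂ Z.y (θz.2 Z.y)) := (inner_conj_symm _ _).symm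
    rw [h3, h4, Z.inner_yy_eq hθz, ← hbc]
    have h5 : inner ℂ Z.x (θzf.2 Z.y) = p1 / (Z.τ : ℂ) := by
      have h6 := Z.inner_xy_eq θzf
      have h7 : θzf * Z.f = Z.f * θzf := by
        ext1
        · exact mul_comm _ _
        · exact P.comm θzf hθzf Z.f Z.hf
      rw [h7, ← hp1] at h6
      rw [eq_div_iff hτc, mul_comm]
      exact h6
    rw [h5]
    simp
    ring
  -- X
  have hX : inner ℂ Z.y (P.S (star g.1) Z.x) - inner ℂ Z.x (P.S (star Z.f.1 * star g.1) Z.x)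
      = conj a / (Z.τ : ℂ) + e0 - (conj a + bc) := by
    have h1 : inner ℂ Z.y (P.S (star g.1) Z.x) = conj a / (Z.τ : ℂ) + e0 := by
      rw [← inner_S_conj P Z.x Z.y g.1, hθgS]
      simp only [ContinuousLinearMap.add_apply, inner_add_right, map_add]
      rw [hxy_g, ContinuousLinearMap.adjoint_inner_right, inner_conj_symm]
      simp [he0]
    have h2 : inner ℂ Z.x (P.S (star Z.f.1 * star g.1) Z.x) = conj a + bc := by
      have h3 : star Z.f.1 * star g.1 = star z.1 := by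
        simp only [hz, Prod.fst_mul, star_mul']
        exact mul_comm _ _
      rw [h3, ← inner_S_conj P Z.x Z.x z.1, hθzS]
      simp only [ContinuousLinearMap.add_apply, inner_add_right, map_add]
      rw [ContinuousLinearMap.adjoint_inner_right]
      have h4 : inner ℂ (θz.2 Z.x) Z.x = conj (inner ℂ Z.x (θz.2 Z.x)) := (inner_conj_symm _ _).symm
      rw [h4, Complex.conj_conj]
      rfl
    rw [h1, h2]
  have hcsY := Z.cs_y z.1 hz1' s hs
  have hcsX := Z.cs_x (star g.1) (by rwa [norm_star]) s hs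
  rw [hXp] at hcsY
  rw [hX] at hcsX
  have hL1val : Z.ell Q1 = p1 + bc := by
    simp only [Ext.ell, hQ1, hp1, hbc, Prod.snd_add, ContinuousLinearMap.add_apply, inner_add_right]
  have hL2val : inner ℂ Z.y (Q2.2 Z.x) = e0 + (Z.τ : ℂ) * bc := by
    have := Z.inner_y_mul θz
    simp only [hQ2, Prod.snd_add, ContinuousLinearMap.add_apply, inner_add_right]
    rw [this]
  set Xp : ℂ := (Z.τ : ℂ) * a + conj p1 / (Z.τ : ℂ) - a - conj bc with hXpdef
  set Xq : ℂ := conj a / (Z.τ : ℂ) + e0 - (conj a + bc) with hXqdef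
  have hid : (((Z.τ - 1) * (Z.τ + 1 / Z.τ) : ℝ) : ℂ) * a
      = (Z.τ : ℂ) * Xp - conj Xq - conj (Z.ell Q1) + conj (inner ℂ Z.y (Q2.2 Z.x)) := by
    rw [hL1val, hL2val, hXpdef, hXqdef]
    simp only [map_add, map_sub, map_mul, map_div₀, Complex.conj_conj, Complex.conj_ofReal]
    push_cast
    field_simp
    ring
  have hnormid : (Z.τ - 1) * (Z.τ + 1 / Z.τ) * ‖a‖
      ≤ Z.τ * ‖Xp‖ + ‖Xq‖ + ‖Z.ell Q1‖ + ‖inner ℂ Z.y (Q2.2 Z.x)‖ := by
    have h1 : ‖(((Z.τ - 1) * (Z.τ + 1 / Z.τ) : ℝ) : ℂ) * a‖ ≥ (Z.τ - 1) * (Z.τ + 1 / Z.τ) * ‖a‖ := by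
      rw [norm_mul, Complex.norm_real]
      exact mul_le_mul_of_nonneg_right (le_abs_self _) (norm_nonneg _)
    rw [hid] at h1
    refine le_trans h1 ?_
    · calc ‖(Z.τ : ℂ) * Xp - conj Xq - conj (Z.ell Q1) + conj (inner ℂ Z.y (Q2.2 Z.x))‖
          ≤ ‖(Z.τ : ℂ) * Xp - conj Xq - conj (Z.ell Q1)‖ + ‖conj (inner ℂ Z.y (Q2.2 Z.x))‖ :=
            norm_add_le _ _
        _ ≤ ‖(Z.τ : ℂ) * Xp - conj Xq‖ + ‖conj (Z.ell Q1)‖ + ‖conj (inner ℂ Z.y (Q2.2 Z.x))‖ := by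
            gcongr; exact norm_sub_le _ _
        _ ≤ ‖(Z.τ : ℂ) * Xp‖ + ‖conj Xq‖ + ‖conj (Z.ell Q1)‖ + ‖conj (inner ℂ Z.y (Q2.2 Z.x))‖ := by
            gcongr; exact norm_sub_le _ _
        _ = Z.τ * ‖Xp‖ + ‖Xq‖ + ‖Z.ell Q1‖ + ‖inner ℂ Z.y (Q2.2 Z.x)‖ := by
            rw [norm_mul, Complex.norm_real, Real.norm_of_nonneg hτ.le, Complex.norm_conj,
              Complex.norm_conj, Complex.norm_conj]
  rw [heta] at hcsY hcsX
  set e : ℝ := 1 / s + s * (2 - Z.τ - a.re / Z.τ) with he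
  have hL1' : ‖Z.ell Q1‖ ≤ Ebar + err / Z.τ := by
    have h1 : Z.τ * ‖Z.ell Q1‖ ≤ Z.τ * (Ebar + err / Z.τ) := by
      have : Z.τ * (Ebar + err / Z.τ) = Z.τ * Ebar + err := by field_simp
      rw [this]; exact hL1
    exact le_of_mul_le_mul_left h1 hτ
  refine ⟨a, ?_, ?_, ?_⟩
  · have h1 := Z.inner_y_mul z
    have h2 : ‖inner ℂ Z.y ((Z.f * z).2 Z.x)‖ ≤ ‖(Z.f * z).2‖ := by
      calc ‖inner ℂ Z.y ((Z.f * z).2 Z.x)‖ ≤ ‖Z.y‖ * ‖(Z.f * z).2 Z.x‖ := norm_inner_le_norm _ _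
        _ ≤ 1 * (‖(Z.f * z).2‖ * 1) := by
            rw [Z.hy]
            gcongr
            simpa [Z.hx] using (Z.f * z).2.le_opNorm Z.x
        _ = ‖(Z.f * z).2‖ := by ring
    have h3 := hK (Z.f * z) (P.alg.mul_mem Z.hf hzmem)
    have h4 : ‖(Z.f * z).1‖ ≤ 1 := by
      calc ‖(Z.f * z).1‖ = ‖Z.f.1 * z.1‖ := by simp
        _ ≤ ‖Z.f.1‖ * ‖z.1‖ := norm_mul_le _ _
        _ ≤ 1 := mul_le_one₀ Z.hf1 (norm_nonneg _) hz1'
    rw [h1, norm_mul, Complex.norm_real, Real.norm_of_nonneg hτ.le] at h2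
    have h5 : K * ‖(Z.f * z).1‖ ≤ K * 1 := mul_le_mul_of_nonneg_left h4 hK0
    linarith
  · rw [heta] at heta0
    linarith
  · have h1 : (1 + 1 / Z.τ) * err = err + err / Z.τ := by field_simp
    rw [h1]
    have h2 : Z.τ * ‖Xp‖ ≤ Z.τ * e := mul_le_mul_of_nonneg_left hcsY hτ.le
    nlinarith

end Main

/-! ### The numerical conclusion -/

/-- Numerical heart: the final inequality has no solution once `τ ≥ 233/100`. -/
lemma numeric_final (τ β E : ℝ) (h1 : 233 / 100 ≤ τ) (hβ : β ≤ 101 / 100)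
    (hη : τ - β / τ ≤ 2)
    (hE : E ≤ 1 / 1000)
    (hmain : (τ - 1) * (τ + 1 / τ) * β ≤
      (τ + 1) * (1 / (13 / 2) + (13 / 2) * (2 - τ + β / τ) + ((5 / 3) * (1 - β) + 1 / (2 * (5 / 3))))
        + E) : False := by
  have hτ : 0 < τ := by linarith
  have hβτ : β / τ * τ = β := by field_simp
  have hlo : τ ^ 2 - 2 * τ ≤ β := by
    have := mul_le_mul_of_nonneg_right hη hτ.le
    rw [sub_mul, hβτ] at this
    nlinarith
  have key : (τ - 1) * (τ ^ 2 + 1) * β ≤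
      (τ + 1) * ((2 / 13 + 3 / 10 + 5 / 3 + 13) * τ - 13 / 2 * τ ^ 2 + 13 / 2 * β - 5 / 3 * τ * β)
        + τ / 1000 := by
    have h2 := mul_le_mul_of_nonneg_left hmain hτ.le
    have h3 : τ * ((τ - 1) * (τ + 1 / τ) * β) = (τ - 1) * (τ ^ 2 + 1) * β := by
      field_simp
    have h4 : τ * ((τ + 1) * (1 / (13 / 2) + (13 / 2) * (2 - τ + β / τ)
          + ((5 / 3) * (1 - β) + 1 / (2 * (5 / 3)))) + E)
        = (τ + 1) * ((2 / 13 + 3 / 10 + 5 / 3 + 13) * τ - 13 / 2 * τ ^ 2 + 13 / 2 * β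
            - 5 / 3 * τ * β) + τ * E := by
      field_simp
      ring
    rw [h3, h4] at h2
    have h5 : τ * E ≤ τ * (1 / 1000) := mul_le_mul_of_nonneg_left hE hτ.le
    linarith
  set v := τ - 233 / 100 with hv
  have hv0 : 0 ≤ v := by linarith
  have hv2 : 0 ≤ v ^ 2 := by positivity
  have hv3 : 0 ≤ v ^ 3 := by positivity
  have hv4 : 0 ≤ v ^ 4 := by positivity
  have hv5 : 0 ≤ v ^ 5 := by positivity
  have hτv : τ = v + 233 / 100 := by rw [hv]; ring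
  set c1 := (τ + 1) * (13 / 2 - 5 / 3 * τ) - (τ - 1) * (τ ^ 2 + 1) with hc1
  have key2 : 0 ≤ (τ + 1) * ((2 / 13 + 3 / 10 + 5 / 3 + 13) * τ - 13 / 2 * τ ^ 2) + c1 * β + τ / 1000 := by
    have : (τ + 1) * ((2 / 13 + 3 / 10 + 5 / 3 + 13) * τ - 13 / 2 * τ ^ 2) + c1 * β + τ / 1000
        = (τ + 1) * ((2 / 13 + 3 / 10 + 5 / 3 + 13) * τ - 13 / 2 * τ ^ 2 + 13 / 2 * β - 5 / 3 * τ * β)
          + τ / 1000 - (τ - 1) * (τ ^ 2 + 1) * β := by
      rw [hc1]; ring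
    rw [this]
    linarith
  by_cases hsign : 0 ≤ c1
  · have h6 : c1 * β ≤ c1 * (101 / 100) := mul_le_mul_of_nonneg_left hβ hsign
    have h7 : (τ + 1) * ((2 / 13 + 3 / 10 + 5 / 3 + 13) * τ - 13 / 2 * τ ^ 2) + c1 * (101 / 100)
        + τ / 1000 < 0 := by
      rw [hc1, hτv]
      nlinarith [hv0, hv2, hv3]
    linarith
  · push_neg at hsign
    have h6 : c1 * β ≤ c1 * (τ ^ 2 - 2 * τ) := mul_le_mul_of_nonpos_left hlo hsign.le
    have h7 : (τ + 1) * ((2 / 13 + 3 / 10 + 5 / 3 + 13) * τ - 13 / 2 * τ ^ 2) + c1 * (τ ^ 2 - 2 * τ)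
        + τ / 1000 < 0 := by
      rw [hc1, hτv]
      nlinarith [hv0, hv2, hv3, hv4, hv5]
    linarith

/-- **Main abstract theorem**: the least constant of the calculus is at most `233/100`. -/
theorem core [FiniteDimensional ℂ H] (K : ℝ) (hK : ∀ u ∈ P.alg, ‖u.2‖ ≤ K * ‖u.1‖)
    (hsharp : ∀ ε > 0, ∃ u ∈ P.alg, ‖u.1‖ ≤ 1 ∧ K - ε ≤ ‖u.2‖) : K ≤ 233 / 100 := by
  by_contra hlt
  push_neg at hlt
  have hK0 : 0 ≤ K := by linarith
  set δ : ℝ := min (1 / 10 ^ 9) (K - 233 / 100) with hδ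
  have hδ0 : 0 < δ := lt_min (by positivity) (by linarith)
  have hδ1 : δ ≤ 1 / 10 ^ 9 := min_le_left _ _
  have hδ2 : δ ≤ K - 233 / 100 := min_le_right _ _
  obtain ⟨u, hu, hu1, hu2⟩ := hsharp δ hδ0
  have hτ1 : 233 / 100 ≤ ‖u.2‖ := by linarith
  have hne : u.2 ≠ 0 := by
    intro h
    rw [h, norm_zero] at hτ1
    norm_num at hτ1
  obtain ⟨x, y, hx, hy, hTx, hTy⟩ := exists_singular u.2 hne
  let Z : Ext P :=
    { f := u, hf := hu, hf1 := hu1, τ := ‖u.2‖, hτ := by linarith, x := x, y := y,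
      hx := hx, hy := hy, hTx := hTx, hTy := hTy }
  have hτZ : Z.τ = ‖u.2‖ := rfl
  have hs : (0 : ℝ) < 13 / 2 := by norm_num
  have ht : (0 : ℝ) < 5 / 3 := by norm_num
  have hε : (0 : ℝ) < 1 / 10 ^ 5 := by positivity
  obtain ⟨a, ha1, ha2, ha3⟩ := core_ineq Z hK hK0 hs ht hε (by norm_num)
  rw [hτZ] at ha1 ha2 ha3
  set τ := ‖u.2‖ with hτ
  have hτ0 : 0 < τ := by linarith
  have hKτ : K - τ ≤ δ := by linarith
  have hKτ0 : 0 ≤ K - τ := by
    have := hK u hu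
    have h2 : K * ‖u.1‖ ≤ K * 1 := mul_le_mul_of_nonneg_left hu1 hK0
    linarith
  have hnorm_a : ‖a‖ ≤ 101 / 100 := by
    have h1 : τ * ‖a‖ ≤ τ * (101 / 100) := by nlinarith
    exact le_of_mul_le_mul_left h1 hτ0
  set β := -a.re with hβ
  have hβa : β ≤ ‖a‖ := by
    have := Complex.abs_re_le_norm a
    have h2 := (abs_le.mp this).1
    linarith
  have hτle : τ ≤ 5 / 2 := by
    have h1 : τ - β / τ ≤ 2 := by
      have : β / τ = - (a.re / τ) := by rw [hβ]; ring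
      rw [this]; linarith
    have h2 : β / τ * τ = β := by field_simp
    have h3 := mul_le_mul_of_nonneg_right h1 hτ0.le
    rw [sub_mul, h2] at h3
    nlinarith
  have hKle : K ≤ 3 := by
    have : δ ≤ 1 := hδ1.trans (by norm_num)
    linarith
  refine numeric_final τ β ((1 + 1 / τ) * ((K - τ) / (1 / 10 ^ 5)
      + K * (1 / 10 ^ 5) * (2 * (5 / 3) + 1 / (2 * (5 / 3))) ^ 2)) hτ1 ?_ ?_ ?_ ?_
  · linarith
  · have : β / τ = - (a.re / τ) := by rw [hβ]; ring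
    rw [this]; linarith
  · have h1 : 1 / τ ≤ 1 := by
      rw [div_le_one hτ0]; linarith
    have h2 : 0 ≤ 1 / τ := by positivity
    have h3 : (K - τ) / (1 / 10 ^ 5) ≤ 1 / 10 ^ 4 := by
      rw [div_le_iff₀ (by positivity)]
      have : δ ≤ 1 / 10 ^ 9 := hδ1
      norm_num at this ⊢
      linarith
    have h4 : K * (1 / 10 ^ 5) * (2 * (5 / 3) + 1 / (2 * (5 / 3))) ^ 2 ≤ 4 / 10 ^ 4 + 1 / 10 ^ 4 / 4 * 0 := by
      norm_num
      nlinarith
    have h5 : 0 ≤ (K - τ) / (1 / 10 ^ 5) + K * (1 / 10 ^ 5) * (2 * (5 / 3) + 1 / (2 * (5 / 3))) ^ 2 := by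
      positivity
    nlinarith
  · have hcoef : 0 ≤ (τ - 1) * (τ + 1 / τ) := by
      have : 0 ≤ τ - 1 := by linarith
      positivity
    have h1 : (τ - 1) * (τ + 1 / τ) * β ≤ (τ - 1) * (τ + 1 / τ) * ‖a‖ :=
      mul_le_mul_of_nonneg_left hβa hcoef
    have h2 : a.re = -β := by rw [hβ]; ring
    rw [h2] at ha3
    have h3 : 2 - τ - -β / τ = 2 - τ + β / τ := by ring
    rw [h3] at ha3
    have h4 : (1 : ℝ) + -β = 1 - β := by ring
    rw [h4] at ha3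
    exact h1.trans ha3

end Vale.Agent.Lib.P123
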