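import Vale.Agent.Lib.P123.Core
import Vale.Agent.Lib.P123.U.Star
import Vale.Agent.Lib.P123.U.Reduction

/-!
# Instantiating the abstract core on a support-function curve
-/

open Complex MeasureTheory Set Filter Topology Polynomial ComplexConjugate
open scoped Real

set_option linter.unusedSectionVars false

namespace Vale.Agent.Lib.P123.U

/-- the parameter interval -/
abbrev Xs : Type := Set.Icc (0:ℝ) (2 * π)

lemma two_pi_nn : (0:ℝ) ≤ 2 * π := by positivity

/-- extension of a function on the parameter interval to the line -/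
noncomputable def ext (F : C(Xs, ℂ)) (t : ℝ) : ℂ := F (projIcc 0 (2 * π) two_pi_nn t)

lemma continuous_ext (F : C(Xs, ℂ)) : Continuous (ext F) := F.continuous.comp continuous_projIcc

lemma ext_add (F G : C(Xs, ℂ)) (t : ℝ) : ext (F + G) t = ext F t + ext G t := rfl
lemma ext_smul (c : ℂ) (F : C(Xs, ℂ)) (t : ℝ) : ext (c • F) t = c * ext F t := rfl
lemma ext_mul (F G : C(Xs, ℂ)) (t : ℝ) : ext (F * G) t = ext F t * ext G t := rfl
lemma ext_star (F : C(Xs, ℂ)) (t : ℝ) : ext (star F) t = conj (ext F t) := rfl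
lemma ext_one (t : ℝ) : ext (1 : C(Xs, ℂ)) t = 1 := rfl
lemma norm_ext_le (F : C(Xs, ℂ)) (t : ℝ) : ‖ext F t‖ ≤ ‖F‖ := F.norm_coe_le_norm _

lemma ext_coe (F : C(Xs, ℂ)) {t : ℝ} (ht : t ∈ Set.Icc (0:ℝ) (2 * π)) : ext F t = F ⟨t, ht⟩ := by
  unfold ext
  rw [projIcc_of_mem two_pi_nn ht]

lemma ext_val (F : C(Xs, ℂ)) (s : Xs) : ext F s = F s := ext_coe F s.2

variable {E : Type} [NormedAddCommGroup E] [InnerProductSpace ℂ E] [FiniteDimensional ℂ E]

namespace SCurve

variable (C : SCurve)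

/-- the coordinate on the curve -/
noncomputable def coordX : C(Xs, ℂ) := ⟨fun s => C.x s, C.cont_x.comp continuous_subtype_val⟩

lemma aeval_coordX (p : ℂ[X]) (s : Xs) : (Polynomial.aeval C.coordX p) s = p.eval (C.x s) := by
  have h := Polynomial.aeval_algHom_apply (ContinuousMap.evalAlgHom ℂ ℂ s) C.coordX p
  have h2 : (ContinuousMap.evalAlgHom ℂ ℂ s) C.coordX = C.x s := rfl
  rw [h2, Polynomial.coe_aeval_eq_eval] at h
  exact h.symm

/-- the boundary double layer operator as a map on continuous functions -/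
noncomputable def LCmap (F : C(Xs, ℂ)) : C(Xs, ℂ) :=
  ⟨fun s => C.LC (ext F) s, (C.continuous_LC (continuous_ext F)).comp continuous_subtype_val⟩

lemma LCmap_apply (F : C(Xs, ℂ)) (s : Xs) : C.LCmap F s = C.LC (ext F) s := rfl

lemma norm_LCmap_le (F : C(Xs, ℂ)) : ‖C.LCmap F‖ ≤ ‖F‖ :=
  (ContinuousMap.norm_le _ (norm_nonneg _)).2 fun s =>
    C.norm_LC_le (continuous_ext F) (norm_ext_le F) s

lemma LCmap_add (F G : C(Xs, ℂ)) : C.LCmap (F + G) = C.LCmap F + C.LCmap G := by
  ext s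
  exact C.LC_add (continuous_ext F) (continuous_ext G) s

lemma LC_congr {g₁ g₂ : ℝ → ℂ} (h : ∀ t ∈ Set.Icc (0:ℝ) (2 * π), g₁ t = g₂ t) (t₀ : ℝ) :
    C.LC g₁ t₀ = C.LC g₂ t₀ := by
  unfold LC
  congr 1
  refine intervalIntegral.integral_congr fun t ht => ?_
  rw [uIcc_of_le two_pi_nn] at ht
  show g₁ t * _ = g₂ t * _
  rw [h t ht]

variable {A : E →L[ℂ] E} {g : ℝ} (hg : 0 < g)
  (hW : ∀ v : E, ‖v‖ = 1 → ∀ t, g ≤ C.D (inner ℂ v (A v)) t)

/-- the Cauchy integral on the parameter interval -/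
noncomputable def Cau (A : E →L[ℂ] E) (F : C(Xs, ℂ)) : E →L[ℂ] E :=
  ∫ t in (0:ℝ)..(2 * π), ext F t • C.NN A t

include hg hW

lemma cont_ext_NN (F : C(Xs, ℂ)) : Continuous fun t => ext F t • C.NN A t :=
  (continuous_ext F).smul (C.cont_NN hg hW)

lemma Cau_add (F G : C(Xs, ℂ)) : C.Cau A (F + G) = C.Cau A F + C.Cau A G := by
  unfold Cau
  rw [← intervalIntegral.integral_add ((C.cont_ext_NN hg hW F).intervalIntegrable _ _)
    ((C.cont_ext_NN hg hW G).intervalIntegrable _ _)]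
  refine intervalIntegral.integral_congr fun t _ => ?_
  simp only [ext_add, add_smul]

lemma Cau_smul (c : ℂ) (F : C(Xs, ℂ)) : C.Cau A (c • F) = c • C.Cau A F := by
  unfold Cau
  rw [← intervalIntegral.integral_smul]
  refine intervalIntegral.integral_congr fun t _ => ?_
  simp only [ext_smul, smul_smul]

lemma norm_Cau_le (F : C(Xs, ℂ)) : ‖C.Cau A F‖ ≤ (C.Rb / g) * ‖F‖ := by
  have hpi := Real.pi_pos
  have hR := C.Rb_pos
  have hb : ∀ t ∈ Set.uIoc (0:ℝ) (2 * π), ‖ext F t • C.NN A t‖ ≤ ‖F‖ * (C.Rb / (2 * π) * (1 / g)) := by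
    intro t _
    rw [norm_smul]
    refine mul_le_mul (norm_ext_le F t) ?_ (norm_nonneg _) (norm_nonneg _)
    unfold NN
    rw [norm_smul, C.dx_div_two_pi, norm_mul, norm_exp_I, mul_one, Complex.norm_real,
      Real.norm_of_nonneg (div_nonneg (C.R_pos t).le (by positivity))]
    refine mul_le_mul (div_le_div_of_nonneg_right (C.R_le t) (by positivity))
      (C.res_unit_bound hg hW t).2 (norm_nonneg _) (by positivity)
  have := intervalIntegral.norm_integral_le_of_norm_le_const hb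
  rw [sub_zero, abs_of_pos (by positivity : (0:ℝ) < 2 * π)] at this
  refine this.trans (le_of_eq ?_)
  field_simp

lemma Cau_one (v₀ : E) (hv₀ : ‖v₀‖ = 1) : C.Cau A 1 = 1 := by
  unfold Cau
  rw [← C.integral_NN hg hW v₀ hv₀]
  refine intervalIntegral.integral_congr fun t _ => ?_
  simp only [ext_one, one_smul]

lemma Cau_aeval (v₀ : E) (hv₀ : ‖v₀‖ = 1) (p : ℂ[X]) :
    C.Cau A (Polynomial.aeval C.coordX p) = Polynomial.aeval A p := by
  rw [C.aeval_eq_integral hg hW v₀ hv₀ p]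
  unfold Cau
  refine intervalIntegral.integral_congr fun t ht => ?_
  rw [uIcc_of_le two_pi_nn] at ht
  show ext _ t • _ = _ • _
  rw [ext_coe _ ht, C.aeval_coordX]

lemma Cau_star_aeval (p : ℂ[X]) :
    C.Cau A (star (Polynomial.aeval C.coordX p)) =
      ∫ t in (0:ℝ)..(2 * π), conj (p.eval (C.x t)) • C.NN A t := by
  unfold Cau
  refine intervalIntegral.integral_congr fun t ht => ?_
  rw [uIcc_of_le two_pi_nn] at ht
  show ext _ t • _ = _ • _
  rw [ext_star, ext_coe _ ht, C.aeval_coordX]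

/-- the scalar form of the Cauchy integral -/
lemma inner_Cau (a b : E) (F : C(Xs, ℂ)) :
    inner ℂ a (C.Cau A F b) = ∫ t in (0:ℝ)..(2 * π), ext F t * inner ℂ a (C.NN A t b) := by
  unfold Cau
  rw [inner_integral_right (C.cont_ext_NN hg hW F)]
  refine intervalIntegral.integral_congr fun t _ => ?_
  simp

lemma inner_Cau_left (a b : E) (F : C(Xs, ℂ)) :
    inner ℂ (C.Cau A (star F) a) b = ∫ t in (0:ℝ)..(2 * π), ext F t * inner ℂ (C.NN A t a) b := by
  unfold Cau
  rw [inner_integral_left (C.cont_ext_NN hg hW (star F))]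
  refine intervalIntegral.integral_congr fun t _ => ?_
  simp [ext_star, mul_comm]

/-- the density form -/
noncomputable def GG (A : E →L[ℂ] E) (a b : E) (t : ℝ) : ℂ :=
  inner ℂ a (C.NN A t b) + inner ℂ (C.NN A t a) b

lemma cont_GG (a b : E) : Continuous (C.GG A a b) := by
  unfold GG
  have hNc := C.cont_NN hg hW
  exact (continuous_const.inner (hNc.clm_apply continuous_const)).add
    ((hNc.clm_apply continuous_const).inner continuous_const)

lemma GG_self_re (u : E) (t : ℝ) : 0 ≤ (C.GG A u u t).re := by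
  unfold GG
  have h := C.re_NN_nonneg hg hW t u
  have h2 : (inner ℂ (C.NN A t u) u).re = (inner ℂ u (C.NN A t u) : ℂ).re := by
    rw [← inner_conj_symm, Complex.conj_re]
  rw [Complex.add_re, h2]
  linarith

lemma GG_self_im (u : E) (t : ℝ) : (C.GG A u u t).im = 0 := by
  unfold GG
  have h2 : (inner ℂ (C.NN A t u) u).im = -(inner ℂ u (C.NN A t u) : ℂ).im := by
    rw [← inner_conj_symm, Complex.conj_im]
  rw [Complex.add_im, h2]
  ring

end SCurve

section Complete

variable [CompleteSpace E]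

namespace SCurve

variable (C : SCurve) {A : E →L[ℂ] E} {g : ℝ} (hg : 0 < g)
  (hW : ∀ v : E, ‖v‖ = 1 → ∀ t, g ≤ C.D (inner ℂ v (A v)) t)

/-- the double layer operator-valued map -/
noncomputable def SS : C(Xs, ℂ) →ₗ[ℂ] (E →L[ℂ] E) where
  toFun F := C.Cau A F + ContinuousLinearMap.adjoint (C.Cau A (star F))
  map_add' F G := by
    rw [star_add, C.Cau_add hg hW, C.Cau_add hg hW, map_add]
    abel
  map_smul' c F := by
    rw [star_smul, C.Cau_smul hg hW, C.Cau_smul hg hW, smul_add]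
    simp [map_smulₛₗ]

lemma SS_apply (F : C(Xs, ℂ)) :
    C.SS hg hW F = C.Cau A F + ContinuousLinearMap.adjoint (C.Cau A (star F)) := rfl

include hg hW

lemma inner_SS (a b : E) (F : C(Xs, ℂ)) :
    inner ℂ a (C.SS hg hW F b) = ∫ t in (0:ℝ)..(2 * π), ext F t * C.GG A a b t := by
  rw [SS_apply, add_apply, inner_add_right,
    ContinuousLinearMap.adjoint_inner_right, C.inner_Cau hg hW, C.inner_Cau_left hg hW]
  have hc := C.cont_NN hg hW
  have h1 : Continuous fun t => ext F t * inner ℂ a (C.NN A t b) :=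
    (continuous_ext F).mul (continuous_const.inner (hc.clm_apply continuous_const))
  have h2 : Continuous fun t => ext F t * inner ℂ (C.NN A t a) b :=
    (continuous_ext F).mul ((hc.clm_apply continuous_const).inner continuous_const)
  rw [← intervalIntegral.integral_add (h1.intervalIntegrable _ _) (h2.intervalIntegrable _ _)]
  refine intervalIntegral.integral_congr fun t _ => ?_
  simp only [GG]
  ring

lemma SS_one (v₀ : E) (hv₀ : ‖v₀‖ = 1) : C.SS hg hW 1 = (2 : ℂ) • (1 : E →L[ℂ] E) := by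
  rw [SS_apply, star_one, C.Cau_one hg hW v₀ hv₀, ContinuousLinearMap.adjoint_one, two_smul]

lemma SS_star (F : C(Xs, ℂ)) :
    C.SS hg hW (star F) = ContinuousLinearMap.adjoint (C.SS hg hW F) := by
  rw [SS_apply, SS_apply, star_star, map_add, ContinuousLinearMap.adjoint_adjoint, add_comm]

/-- the pointwise positivity identity -/
lemma GG_expand (α β : ℂ) (x y : E) (t : ℝ) :
    C.GG A (α • x + β • y) (α • x + β • y) t =
      (conj α * α) * C.GG A x x t + (conj β * β) * C.GG A y y t +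
        (conj β * α) * C.GG A y x t + (conj α * β) * C.GG A x y t := by
  unfold GG
  simp only [map_add, map_smul, inner_add_left, inner_add_right, inner_smul_left, inner_smul_right]
  ring

lemma SS_pos (α β : C(Xs, ℂ)) (x y : E) :
    0 ≤ (inner ℂ x (C.SS hg hW (star α * α) x) + inner ℂ y (C.SS hg hW (star β * β) y)
      + inner ℂ y (C.SS hg hW (star β * α) x) + inner ℂ x (C.SS hg hW (star α * β) y)).re := by
  simp only [C.inner_SS hg hW]
  have hc : ∀ (F : C(Xs, ℂ)) (a b : E), Continuous fun t => ext F t * C.GG A a b t :=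
    fun F a b => (continuous_ext F).mul (C.cont_GG hg hW a b)
  have hadd : ∀ f g : ℝ → ℂ, Continuous f → Continuous g →
      (∫ t in (0:ℝ)..(2 * π), f t) + (∫ t in (0:ℝ)..(2 * π), g t) =
        ∫ t in (0:ℝ)..(2 * π), (f t + g t) := fun f g hf hg =>
    (intervalIntegral.integral_add (hf.intervalIntegrable _ _) (hg.intervalIntegrable _ _)).symm
  have hc2 : Continuous fun t => ext (star α * α) t * C.GG A x x t + ext (star β * β) t * C.GG A y y t :=
    (hc _ _ _).add (hc _ _ _)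
  have hc3 : Continuous fun t => ext (star α * α) t * C.GG A x x t + ext (star β * β) t * C.GG A y y t +
      ext (star β * α) t * C.GG A y x t := hc2.add (hc _ _ _)
  rw [hadd _ _ (hc (star α * α) x x) (hc (star β * β) y y),
    hadd _ _ hc2 (hc (star β * α) y x), hadd _ _ hc3 (hc (star α * β) x y)]
  have e : ∀ t, ext (star α * α) t * C.GG A x x t + ext (star β * β) t * C.GG A y y t +
      ext (star β * α) t * C.GG A y x t + ext (star α * β) t * C.GG A x y t =
      C.GG A (ext α t • x + ext β t • y) (ext α t • x + ext β t • y) t := by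
    intro t
    rw [C.GG_expand hg hW]
    simp only [ext_mul, ext_star]
  simp_rw [e]
  have hcc : Continuous fun t => ext (star α * α) t * C.GG A x x t + ext (star β * β) t * C.GG A y y t +
      ext (star β * α) t * C.GG A y x t + ext (star α * β) t * C.GG A x y t :=
    (((hc _ _ _).add (hc _ _ _)).add (hc _ _ _)).add (hc _ _ _)
  simp_rw [e] at hcc
  have h3 := Complex.reCLM.intervalIntegral_comp_comm (hcc.intervalIntegrable (μ := volume) 0 (2 * π))
  simp only [Complex.reCLM_apply] at h3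
  rw [← h3]
  refine intervalIntegral.integral_nonneg two_pi_nn fun t _ => ?_
  exact C.GG_self_re hg hW _ t

lemma SS_le (v₀ : E) (hv₀ : ‖v₀‖ = 1) (F : C(Xs, ℂ)) (x : E) (hF : ‖F‖ ≤ 1) :
    (inner ℂ x (C.SS hg hW (star F * F) x)).re ≤ 2 * ‖x‖ ^ 2 := by
  have h1 : (inner ℂ x (C.SS hg hW 1 x)).re = 2 * ‖x‖ ^ 2 := by
    rw [C.SS_one hg hW v₀ hv₀]
    simp only [smul_apply, one_apply_eq_self, inner_smul_right,
      inner_self_eq_norm_sq_to_K]
    have : (((‖x‖ : ℝ) : ℂ)) ^ 2 = ((‖x‖ ^ 2 : ℝ) : ℂ) := by push_cast; rfl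
    simp only [Complex.coe_algebraMap, this]
    rw [Complex.re_mul_ofReal]
    simp
  rw [← h1, C.inner_SS hg hW, C.inner_SS hg hW]
  have hc : ∀ (F : C(Xs, ℂ)), Continuous fun t => ext F t * C.GG A x x t :=
    fun F => (continuous_ext F).mul (C.cont_GG hg hW x x)
  have h2 := fun (F : C(Xs, ℂ)) => Complex.reCLM.intervalIntegral_comp_comm
    ((hc F).intervalIntegrable (μ := volume) 0 (2 * π))
  simp only [Complex.reCLM_apply] at h2
  rw [← h2, ← h2]
  refine intervalIntegral.integral_mono_on two_pi_nn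
    ((Complex.continuous_re.comp (hc _)).intervalIntegrable _ _)
    ((Complex.continuous_re.comp (hc _)).intervalIntegrable _ _) fun t _ => ?_
  have hG := C.GG_self_re hg hW x t
  have hG2 := C.GG_self_im hg hW x t
  have ht : ‖ext F t‖ ≤ 1 := (norm_ext_le F t).trans hF
  rw [ext_mul, ext_star, ext_one, one_mul, conj_mul_eq, Complex.re_ofReal_mul]
  have : ‖ext F t‖ ^ 2 ≤ 1 := pow_le_one₀ (norm_nonneg _) ht
  nlinarith

omit [CompleteSpace E] in
lemma norm_pair_sub_le (F F' : C(Xs, ℂ)) :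
    ‖(C.LCmap (star F), C.Cau A (star F)) - (C.LCmap (star F'), C.Cau A (star F'))‖ ≤
      max 1 (C.Rb / g) * ‖F - F'‖ := by
  have h1 : C.LCmap (star F) - C.LCmap (star F') = C.LCmap (star (F - F')) := by
    have hs : star (F - F') = star F - star F' := star_sub F F'
    have := C.LCmap_add (star F - star F') (star F')
    rw [sub_add_cancel] at this
    rw [this, hs]; abel
  have h2 : C.Cau A (star F) - C.Cau A (star F') = C.Cau A (star (F - F')) := by
    have hs : star (F - F') = star F - star F' := star_sub F F'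
    have := C.Cau_add hg hW (star F - star F') (star F')
    rw [sub_add_cancel] at this
    rw [this, hs]; abel
  rw [Prod.mk_sub_mk, h1, h2, Prod.norm_mk]
  have h3 := C.norm_LCmap_le (star (F - F'))
  have h4 := C.norm_Cau_le hg hW (star (F - F'))
  have hn : ‖star (F - F')‖ ≤ ‖F - F'‖ := (ContinuousMap.norm_le _ (norm_nonneg _)).2 fun s => by
    rw [ContinuousMap.star_apply, norm_star]
    exact (F - F').norm_coe_le_norm s
  have hR : 0 ≤ C.Rb / g := div_nonneg C.Rb_pos.le hg.le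
  refine max_le ?_ ?_
  · exact h3.trans (hn.trans (le_mul_of_one_le_left (norm_nonneg _) (le_max_left _ _)))
  · refine h4.trans ((mul_le_mul_of_nonneg_left hn hR).trans ?_)
    exact mul_le_mul_of_nonneg_right (le_max_right _ _) (norm_nonneg _)

end SCurve
end Complete

section Complete2

variable [CompleteSpace E]

namespace SCurve

variable (C : SCurve) (A : E →L[ℂ] E)

/-- the generator -/
noncomputable def u0 : C(Xs, ℂ) × (E →L[ℂ] E) := (C.coordX, A)

/-- polynomials in the generator -/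
noncomputable def alg0 : Subalgebra ℂ (C(Xs, ℂ) × (E →L[ℂ] E)) :=
  (Polynomial.aeval (C.u0 A)).range

/-- the closed algebra -/
noncomputable def alg1 : Subalgebra ℂ (C(Xs, ℂ) × (E →L[ℂ] E)) := (C.alg0 A).topologicalClosure

lemma aeval_u0_fst (p : ℂ[X]) : (Polynomial.aeval (C.u0 A) p).1 = Polynomial.aeval C.coordX p := by
  have h := Polynomial.aeval_algHom_apply (AlgHom.fst ℂ C(Xs, ℂ) (E →L[ℂ] E)) (C.u0 A) p
  exact h.symm

lemma aeval_u0_snd (p : ℂ[X]) : (Polynomial.aeval (C.u0 A) p).2 = Polynomial.aeval A p := by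
  have h := Polynomial.aeval_algHom_apply (AlgHom.snd ℂ C(Xs, ℂ) (E →L[ℂ] E)) (C.u0 A) p
  exact h.symm

lemma alg1_comm (u : C(Xs, ℂ) × (E →L[ℂ] E)) (hu : u ∈ C.alg1 A)
    (v : C(Xs, ℂ) × (E →L[ℂ] E)) (hv : v ∈ C.alg1 A) : u.2 * v.2 = v.2 * u.2 := by
  have h0 : ∀ a ∈ C.alg0 A, ∀ b ∈ C.alg0 A, a * b = b * a := by
    rintro _ ⟨p, rfl⟩ _ ⟨q, rfl⟩
    simp only [AlgHom.toRingHom_eq_coe, RingHom.coe_coe]
    rw [← map_mul, ← map_mul, mul_comm p q]
  have hcl : ∀ a ∈ C.alg0 A, ∀ b ∈ C.alg1 A, a * b = b * a := by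
    intro a ha b hb
    have hc : IsClosed {x : C(Xs, ℂ) × (E →L[ℂ] E) | a * x = x * a} :=
      isClosed_eq (continuous_const.mul continuous_id) (continuous_id.mul continuous_const)
    exact closure_minimal (fun x hx => h0 a ha x hx) hc hb
  have hcl2 : ∀ a ∈ C.alg1 A, ∀ b ∈ C.alg1 A, a * b = b * a := by
    intro a ha b hb
    have hc : IsClosed {x : C(Xs, ℂ) × (E →L[ℂ] E) | x * b = b * x} :=
      isClosed_eq (continuous_id.mul continuous_const) (continuous_const.mul continuous_id)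
    exact closure_minimal (fun x hx => hcl x hx b hb) hc ha
  have := hcl2 u hu v hv
  exact congrArg Prod.snd this

variable {A} {g : ℝ} (hg : 0 < g)
  (hW : ∀ v : E, ‖v‖ = 1 → ∀ t, g ≤ C.D (inner ℂ v (A v)) t)
include hg hW

lemma continuous_Cau : Continuous (C.Cau A) := by
  have hL : ∀ F F' : C(Xs, ℂ), ‖C.Cau A F - C.Cau A F'‖ ≤ (C.Rb / g) * ‖F - F'‖ := by
    intro F F'
    have h2 : C.Cau A F - C.Cau A F' = C.Cau A (F - F') := by
      have := C.Cau_add hg hW (F - F') F'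
      rw [sub_add_cancel] at this
      rw [this]; abel
    rw [h2]
    exact C.norm_Cau_le hg hW _
  have hpos : 0 ≤ C.Rb / g := div_nonneg C.Rb_pos.le hg.le
  exact (LipschitzWith.of_dist_le_mul (K := ⟨C.Rb / g, hpos⟩) (fun F F' => by
    rw [dist_eq_norm, dist_eq_norm]
    exact hL F F')).continuous

lemma snd_eq_Cau (v₀ : E) (hv₀ : ‖v₀‖ = 1) (u : C(Xs, ℂ) × (E →L[ℂ] E)) (hu : u ∈ C.alg1 A) :
    u.2 = C.Cau A u.1 := by
  have hc : IsClosed {x : C(Xs, ℂ) × (E →L[ℂ] E) | x.2 = C.Cau A x.1} :=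
    isClosed_eq continuous_snd ((C.continuous_Cau hg hW).comp continuous_fst)
  refine closure_minimal ?_ hc hu
  rintro _ ⟨p, rfl⟩
  simp only [AlgHom.toRingHom_eq_coe, RingHom.coe_coe, mem_ofPred_eq]
  rw [aeval_u0_fst, aeval_u0_snd, C.Cau_aeval hg hW v₀ hv₀]

/-- the second operator of the theta map -/
lemma pair_mem_of_poly (p : ℂ[X]) :
    (C.LCmap (star (Polynomial.aeval C.coordX p)), C.Cau A (star (Polynomial.aeval C.coordX p)))
      ∈ C.alg1 A := by
  refine Metric.mem_closure_iff.2 fun ε hε => ?_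
  obtain ⟨q, hq1, hq2⟩ := C.approx_conj hg hW p (half_pos hε)
  refine ⟨Polynomial.aeval (C.u0 A) q, ⟨q, rfl⟩, ?_⟩
  rw [Prod.dist_eq]
  refine max_lt ?_ ?_
  · rw [aeval_u0_fst, dist_comm]
    refine lt_of_le_of_lt ?_ (half_lt_self hε)
    refine (ContinuousMap.dist_le (half_pos hε).le).2 fun s => ?_
    rw [C.aeval_coordX, LCmap_apply, dist_eq_norm]
    have e : C.LC (ext (star (Polynomial.aeval C.coordX p))) s =
        conj (C.LC (fun t => p.eval (C.x t)) s) := by
      rw [← C.LC_conj _ _ (C.cont_eval p)]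
      refine C.LC_congr (fun t ht => ?_) s
      rw [ext_star, ext_coe _ ht, C.aeval_coordX]
    rw [e]
    exact hq2 s
  · rw [aeval_u0_snd, dist_comm, dist_eq_norm]
    refine lt_of_le_of_lt ?_ (half_lt_self hε)
    rw [C.Cau_star_aeval hg hW]
    exact hq1

/-- the theta map preserves the closed algebra -/
lemma pair_mem (u : C(Xs, ℂ) × (E →L[ℂ] E)) (hu : u ∈ C.alg1 A) :
    (C.LCmap (star u.1), C.Cau A (star u.1)) ∈ C.alg1 A := by
  set Ξ : C(Xs, ℂ) × (E →L[ℂ] E) → C(Xs, ℂ) × (E →L[ℂ] E) :=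
    fun x => (C.LCmap (star x.1), C.Cau A (star x.1)) with hΞ
  have hL : ∀ x x', dist (Ξ x) (Ξ x') ≤ (max 1 (C.Rb / g)) * dist x x' := by
    intro x x'
    rw [dist_eq_norm, dist_eq_norm]
    refine (C.norm_pair_sub_le hg hW x.1 x'.1).trans ?_
    refine mul_le_mul_of_nonneg_left ?_ (le_max_of_le_left zero_le_one)
    rw [Prod.norm_def]
    exact le_max_left _ _
  have hcont : Continuous Ξ := by
    have hpos : 0 ≤ max 1 (C.Rb / g) := le_max_of_le_left zero_le_one
    exact (LipschitzWith.of_dist_le_mul (K := ⟨_, hpos⟩) hL).continuous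
  have hmaps : Set.MapsTo Ξ (C.alg0 A : Set _) (C.alg1 A : Set _) := by
    rintro _ ⟨p, rfl⟩
    simp only [hΞ, AlgHom.toRingHom_eq_coe, RingHom.coe_coe]
    rw [aeval_u0_fst]
    exact C.pair_mem_of_poly hg hW p
  have h1 : Ξ u ∈ closure (C.alg1 A : Set (C(Xs, ℂ) × (E →L[ℂ] E))) :=
    map_mem_closure hcont hu hmaps
  have hclosed : IsClosed (C.alg1 A : Set (C(Xs, ℂ) × (E →L[ℂ] E))) :=
    Subalgebra.isClosed_topologicalClosure _
  rwa [hclosed.closure_eq] at h1

/-- The data for the abstract core. -/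
noncomputable def cpData (v₀ : E) (hv₀ : ‖v₀‖ = 1) : CPData Xs E where
  alg := C.alg1 A
  comm := C.alg1_comm A
  S := C.SS hg hW
  S_one := C.SS_one hg hW v₀ hv₀
  S_star := C.SS_star hg hW
  S_pos := C.SS_pos hg hW
  S_le := fun F x hF => C.SS_le hg hW v₀ hv₀ F x hF
  D := Set.univ
  D_dense := dense_univ
  E := fun σ =>
    { toFun := fun F => C.LC (ext F) σ
      map_add' := fun F G => C.LC_add (continuous_ext F) (continuous_ext G) σ
      map_smul' := fun c F => C.LC_const_mul c (ext F) σ }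
  E_one := fun σ _ => C.LC_const 1 σ
  E_star := fun σ _ F => C.LC_conj (ext F) σ (continuous_ext F)
  E_pos := by
    intro σ _ F hF
    show 0 ≤ (C.LC (ext F) σ).re
    rw [C.LC_re (continuous_ext F)]
    refine C.LR_nonneg (Complex.continuous_re.comp (continuous_ext F)) (fun t => ?_) σ
    exact (hF _).2
  theta := by
    intro u hu
    refine ⟨(C.LCmap (star u.1), C.Cau A (star u.1)), C.pair_mem hg hW u hu, ?_, fun σ _ => rfl⟩
    rw [SS_apply]
    congr 1
    exact (C.snd_eq_Cau hg hW v₀ hv₀ u hu).symm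

/-- The main estimate on the curve, with the improved constant. -/
theorem main_curve_233 (v₀ : E) (hv₀ : ‖v₀‖ = 1) (P : ℂ[X]) (M : ℝ)
    (hM : ∀ t, ‖P.eval (C.x t)‖ ≤ M) :
    ‖Polynomial.aeval A P‖ ≤ (233 / 100) * M := by
  set Q := C.cpData hg hW v₀ hv₀ with hQ
  set T : Set ℝ := {r | ∃ u ∈ C.alg1 A, ‖u.1‖ ≤ 1 ∧ r = ‖u.2‖} with hT
  have hBd : BddAbove T := by
    refine ⟨C.Rb / g, ?_⟩
    rintro r ⟨u, hu, hu1, rfl⟩
    rw [C.snd_eq_Cau hg hW v₀ hv₀ u hu]
    refine (C.norm_Cau_le hg hW _).trans ?_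
    have : 0 ≤ C.Rb / g := div_nonneg C.Rb_pos.le hg.le
    nlinarith [norm_nonneg u.1]
  have h0T : (0:ℝ) ∈ T := ⟨0, Subalgebra.zero_mem _, by simp, by simp⟩
  set K := sSup T with hK
  have hK0 : 0 ≤ K := le_csSup hBd h0T
  have hKb : ∀ u ∈ C.alg1 A, ‖u.2‖ ≤ K * ‖u.1‖ := by
    intro u hu
    rcases eq_or_ne u.1 0 with h | h
    · rw [C.snd_eq_Cau hg hW v₀ hv₀ u hu, h]
      have h2 := C.norm_Cau_le hg hW (A := A) (0 : C(Xs, ℂ))
      rw [norm_zero, mul_zero] at h2
      rw [norm_zero, mul_zero]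
      exact h2
    · have hn : 0 < ‖u.1‖ := norm_pos_iff.2 h
      set c : ℂ := ((‖u.1‖ : ℂ))⁻¹ with hc
      have hcn : ‖c‖ = ‖u.1‖⁻¹ := by
        rw [hc, norm_inv, Complex.norm_real, norm_norm]
      have hmem : c • u ∈ C.alg1 A := Subalgebra.smul_mem _ hu c
      have h1 : ‖(c • u).1‖ ≤ 1 := by
        rw [Prod.smul_fst, norm_smul, hcn]
        exact (inv_mul_cancel₀ hn.ne').le
      have h2 : ‖(c • u).2‖ ≤ K := le_csSup hBd ⟨c • u, hmem, h1, rfl⟩
      rw [Prod.smul_snd, norm_smul, hcn] at h2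
      rw [mul_comm K]
      have := mul_le_mul_of_nonneg_left h2 hn.le
      rw [← mul_assoc, mul_inv_cancel₀ hn.ne', one_mul] at this
      exact this
  have hsharp : ∀ ε > 0, ∃ u ∈ C.alg1 A, ‖u.1‖ ≤ 1 ∧ K - ε ≤ ‖u.2‖ := by
    intro ε hε
    obtain ⟨r, ⟨u, hu, hu1, rfl⟩, hr⟩ := exists_lt_of_lt_csSup ⟨0, h0T⟩ (sub_lt_self K hε)
    exact ⟨u, hu, hu1, hr.le⟩
  have hcore : K ≤ 233 / 100 := Vale.Agent.Lib.P123.core Q K hKb hsharp
  have hmem : Polynomial.aeval (C.u0 A) P ∈ C.alg1 A :=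
    subset_closure ⟨P, rfl⟩
  have hb := hKb _ hmem
  rw [aeval_u0_fst, aeval_u0_snd] at hb
  have hM0 : 0 ≤ M := (norm_nonneg _).trans (hM 0)
  have hb2 : ‖Polynomial.aeval C.coordX P‖ ≤ M :=
    (ContinuousMap.norm_le _ hM0).2 fun s => by
      rw [C.aeval_coordX]; exact hM s
  calc ‖Polynomial.aeval A P‖ ≤ K * ‖Polynomial.aeval C.coordX P‖ := hb
    _ ≤ K * M := mul_le_mul_of_nonneg_left hb2 hK0
    _ ≤ (233 / 100) * M := mul_le_mul_of_nonneg_right hcore hM0

end SCurve
end Complete2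

/-- The final theorem: the Crouzeix constant is at most `233/100`. -/
theorem crouzeix_233 {H : Type*} [NormedAddCommGroup H] [InnerProductSpace ℂ H] [Nontrivial H]
    (A : H →L[ℂ] H) (P : ℂ[X]) (M : ℝ) (hP : ∀ v : H, ‖v‖ = 1 → ‖P.eval (inner ℂ v (A v))‖ ≤ M) :
    ‖Polynomial.aeval A P‖ ≤ (233 / 100) * M := by
  refine reduction' _ (by norm_num) ?_ A P M hP
  intro C E _ _ _ A g v₀ hg hv₀ hW P M hM
  have : CompleteSpace E := FiniteDimensional.complete ℂ E
  exact C.main_curve_233 hg hW v₀ hv₀ P M hM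

end Vale.Agent.Lib.P123.U
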