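import Vale.Agent.Lib.P123.Core

/-!
# The constant two

Abstract form of the argument: a commutative algebra of pairs (boundary function, operator), a
positive operator valued map `S` with `S 1 = 2`, and the Crouzeix-Palencia relation
`S u.1 = u.2 + (v.2)†` with `‖v.1‖ ≤ ‖u.1‖`.  If the calculus is bounded at all, then its norm is
at most `2`.
-/

namespace Vale.Agent.Lib.P123

open ComplexConjugate

variable {X H : Type*} [TopologicalSpace X] [CompactSpace X]
  [NormedAddCommGroup H] [InnerProductSpace ℂ H] [CompleteSpace H]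

variable (X H) in
/-- Abstract data for the constant two. -/
structure CPTwo where
  /-- algebra of pairs (boundary function, operator) -/
  alg : Subalgebra ℂ (C(X, ℂ) × (H →L[ℂ] H))
  comm : ∀ u ∈ alg, ∀ v ∈ alg, u.2 * v.2 = v.2 * u.2
  /-- the positive map `F ↦ ∫ F dμ` -/
  S : C(X, ℂ) →ₗ[ℂ] (H →L[ℂ] H)
  S_one : S 1 = (2 : ℂ) • (1 : H →L[ℂ] H)
  S_star : ∀ F, S (star F) = ContinuousLinearMap.adjoint (S F)
  S_pos : ∀ (α β γ : C(X, ℂ)) (a b c : H),
    0 ≤ (inner ℂ a (S (star α * α) a) + inner ℂ b (S (star β * β) b) + inner ℂ c (S (star γ * γ) c)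
      + inner ℂ a (S (star α * β) b) + inner ℂ b (S (star β * α) a)
      + inner ℂ a (S (star α * γ) c) + inner ℂ c (S (star γ * α) a)
      + inner ℂ b (S (star β * γ) c) + inner ℂ c (S (star γ * β) b)).re
  S_le : ∀ (F : C(X, ℂ)) (x : H), ‖F‖ ≤ 1 → (inner ℂ x (S (star F * F) x)).re ≤ 2 * ‖x‖ ^ 2
  /-- the Cauchy transform of the conjugate stays in the algebra, without increasing the norm -/
  theta : ∀ u ∈ alg, ∃ v ∈ alg, S u.1 = u.2 + ContinuousLinearMap.adjoint v.2 ∧ ‖v.1‖ ≤ ‖u.1‖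

variable (P : CPTwo X H)

namespace CPTwo

lemma inner_S_conj (a b : H) (F : C(X, ℂ)) :
    conj (inner ℂ a (P.S F b)) = inner ℂ b (P.S (star F) a) := by
  rw [P.S_star, ContinuousLinearMap.adjoint_inner_right, inner_conj_symm]

/-- Cauchy-Schwarz for the three vector form. -/
lemma cs3 (a b c : H) (α β γ : C(X, ℂ)) (r : ℝ) (hr : 0 < r) :
    2 * r * ‖inner ℂ a (P.S (star α * β) b) + inner ℂ a (P.S (star α * γ) c)‖ ≤
      (inner ℂ a (P.S (star α * α) a)).re +
        r ^ 2 * (inner ℂ b (P.S (star β * β) b) + inner ℂ c (P.S (star γ * γ) c)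
          + inner ℂ b (P.S (star β * γ) c) + inner ℂ c (P.S (star γ * β) b)).re := by
  set Z : ℂ := inner ℂ a (P.S (star α * β) b) + inner ℂ a (P.S (star α * γ) c) with hZ
  set N : ℂ := inner ℂ b (P.S (star β * β) b) + inner ℂ c (P.S (star γ * γ) c)
          + inner ℂ b (P.S (star β * γ) c) + inner ℂ c (P.S (star γ * β) b) with hN
  obtain ⟨e, he1, he2⟩ : ∃ e : ℂ, ‖e‖ = 1 ∧ (e * Z).re = ‖Z‖ := by
    by_cases h : Z = 0
    · exact ⟨1, by simp, by simp [h]⟩
    · have hn : (‖Z‖ : ℂ) ≠ 0 := by simpa using h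
      refine ⟨conj Z / ‖Z‖, ?_, ?_⟩
      · simp [norm_ne_zero_iff.mpr h]
      · have : conj Z / ‖Z‖ * Z = ‖Z‖ := by
          rw [div_mul_eq_mul_div, Complex.conj_mul', pow_two, mul_div_assoc, div_self hn, mul_one]
        rw [this]; simp
  set l : ℂ := -(r : ℂ) * e with hl
  have h0 := P.S_pos α (l • β) (l • γ) a b c
  have hconj : conj l * l = ((r ^ 2 : ℝ) : ℂ) := by
    rw [conj_mul_eq]
    congr 2
    simp [hl, he1, abs_of_pos hr]
  have e1 : star (l • β) * (l • β) = ((r ^ 2 : ℝ) : ℂ) • (star β * β) := by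
    rw [star_smul, smul_mul_smul_comm]; simp [hconj]
  have e2 : star (l • γ) * (l • γ) = ((r ^ 2 : ℝ) : ℂ) • (star γ * γ) := by
    rw [star_smul, smul_mul_smul_comm]; simp [hconj]
  have e3 : star (l • β) * (l • γ) = ((r ^ 2 : ℝ) : ℂ) • (star β * γ) := by
    rw [star_smul, smul_mul_smul_comm]; simp [hconj]
  have e4 : star (l • γ) * (l • β) = ((r ^ 2 : ℝ) : ℂ) • (star γ * β) := by
    rw [star_smul, smul_mul_smul_comm]; simp [hconj]
  have e5 : star α * (l • β) = l • (star α * β) := mul_smul_comm _ _ _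
  have e6 : star α * (l • γ) = l • (star α * γ) := mul_smul_comm _ _ _
  have e7 : star (l • β) * α = (conj l) • (star β * α) := by
    rw [star_smul, smul_mul_assoc]; rfl
  have e8 : star (l • γ) * α = (conj l) • (star γ * α) := by
    rw [star_smul, smul_mul_assoc]; rfl
  rw [e1, e2, e3, e4, e5, e6, e7, e8] at h0
  simp only [map_smul, smul_apply, inner_smul_right, map_smul, inner_smul_left,
    smul_apply] at h0
  have hc1 : inner ℂ b (P.S (star β * α) a) = conj (inner ℂ a (P.S (star α * β) b)) := by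
    rw [inner_S_conj, star_mul, star_star]
  have hc2 : inner ℂ c (P.S (star γ * α) a) = conj (inner ℂ a (P.S (star α * γ) c)) := by
    rw [inner_S_conj, star_mul, star_star]
  rw [hc1, hc2] at h0
  have hre : (l * Z).re = -(r * ‖Z‖) := by
    rw [hl, mul_assoc, ← Complex.ofReal_neg, Complex.re_ofReal_mul]
    rw [he2]; ring
  have hZ2 : (conj l * conj (inner ℂ a (P.S (star α * β) b)) + conj l * conj (inner ℂ a (P.S (star α * γ) c))).re
      = -(r * ‖Z‖) := by
    rw [← mul_add, ← map_add, ← map_mul, Complex.conj_re, ← hZ, hre]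
  have hZ1 : (l * inner ℂ a (P.S (star α * β) b) + l * inner ℂ a (P.S (star α * γ) c)).re
      = -(r * ‖Z‖) := by
    rw [← mul_add, ← hZ, hre]
  have hNN : (((r ^ 2 : ℝ) : ℂ) * inner ℂ b (P.S (star β * β) b) + ((r ^ 2 : ℝ) : ℂ) * inner ℂ c (P.S (star γ * γ) c)
      + ((r ^ 2 : ℝ) : ℂ) * inner ℂ b (P.S (star β * γ) c) + ((r ^ 2 : ℝ) : ℂ) * inner ℂ c (P.S (star γ * β) b)).re
      = r ^ 2 * N.re := by
    rw [hN, ← Complex.re_ofReal_mul]
    congr 1
    ring
  simp only [Complex.add_re] at h0 hZ1 hZ2 hNN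
  linarith

end CPTwo

/-! ### The recursion -/

section Rec

variable {P}
variable {f : C(X, ℂ) × (H →L[ℂ] H)} {τ : ℝ} {x y : H}

/-- The defect. -/
noncomputable def etaTwo (P : CPTwo X H) (f : C(X, ℂ) × (H →L[ℂ] H)) (x y : H) : ℝ :=
  2 - (inner ℂ y (P.S f.1 x)).re

/-- The key step of the recursion. -/
lemma key_step (hf : f ∈ P.alg) (hf1 : ‖f.1‖ ≤ 1) (hτ : 1 < τ) (hx : ‖x‖ = 1) (hy : ‖y‖ = 1)
    (hTx : f.2 x = (τ : ℂ) • y) (hTy : ContinuousLinearMap.adjoint f.2 y = (τ : ℂ) • x)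
    {w v v' : C(X, ℂ) × (H →L[ℂ] H)} (hw : w ∈ P.alg) (hw1 : ‖w.1‖ ≤ 1) (hv : v ∈ P.alg)
    (hv' : v' ∈ P.alg)
    (hS : P.S w.1 = w.2 + ContinuousLinearMap.adjoint v.2)
    (hS' : P.S (f * w).1 = (f * w).2 + ContinuousLinearMap.adjoint v'.2) :
    -(etaTwo P f x y / (τ - 1)) ≤ (inner ℂ x ((w * v).2 x)).re
      - (inner ℂ x (((f * w) * v').2 x)).re / τ := by
  have hτ0 : 0 < τ := by linarith
  have hτ1 : 0 < τ - 1 := by linarith
  have hτc : (τ : ℂ) ≠ 0 := by exact_mod_cast hτ0.ne'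
  have hxx : inner ℂ x x = (1 : ℂ) := by rw [inner_self_eq_norm_sq_to_K, hx]; simp
  have hyy : inner ℂ y y = (1 : ℂ) := by rw [inner_self_eq_norm_sq_to_K, hy]; simp
  -- the state is the same on `x` and `y`
  have hstate : ∀ u ∈ P.alg, inner ℂ y (u.2 y) = inner ℂ x (u.2 x) := by
    intro u hu
    have h1 : u.2 (f.2 x) = f.2 (u.2 x) := by
      have := P.comm u hu f hf
      simpa using congrArg (fun B : H →L[ℂ] H => B x) this
    have h2 : inner ℂ y (f.2 (u.2 x)) = (τ : ℂ) * inner ℂ x (u.2 x) := by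
      rw [← ContinuousLinearMap.adjoint_inner_left, hTy, inner_smul_left, Complex.conj_ofReal]
    rw [← h1, hTx, map_smul, inner_smul_right] at h2
    exact mul_left_cancel₀ hτc h2
  -- mixed values
  have hmixed : ∀ u : C(X, ℂ) × (H →L[ℂ] H), inner ℂ x (u.2 y) = inner ℂ x ((u * f).2 x) / (τ : ℂ) := by
    intro u
    have : (u * f).2 x = u.2 (f.2 x) := rfl
    rw [this, hTx, map_smul, inner_smul_right]
    field_simp
  set h : H := w.2 y with hh
  -- the commutation
  have hfw : (f * w).2 x = (τ : ℂ) • h := by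
    have h1 : (f * w).2 = (w * f).2 := by
      simpa using P.comm f hf w hw
    rw [h1]
    show w.2 (f.2 x) = _
    rw [hTx, map_smul]
  -- the Cauchy-Schwarz
  set r : ℝ := 1 / (τ - 1) with hr
  have hrpos : 0 < r := by positivity
  have hcs := P.cs3 h x y (star w.1) f.1 (-1) r hrpos
  -- evaluating `Z`
  have hZ : inner ℂ h (P.S (star (star w.1) * f.1) x) + inner ℂ h (P.S (star (star w.1) * (-1)) y)
      = ((τ - 1 : ℝ) : ℂ) * ((‖h‖ : ℂ) ^ 2) + conj (inner ℂ x (((f * w) * v').2 x)) / (τ : ℂ)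
        - conj (inner ℂ x ((w * v).2 x)) := by
    have e1 : star (star w.1) * f.1 = (f * w).1 := by
      rw [star_star]; simp [mul_comm]
    have e2 : star (star w.1) * (-1 : C(X, ℂ)) = - w.1 := by
      rw [star_star]; simp
    rw [e1, e2, map_neg, hS', hS]
    simp only [ContinuousLinearMap.add_apply, ContinuousLinearMap.neg_apply, inner_neg_right,
      inner_add_right]
    rw [hfw, inner_smul_right, ContinuousLinearMap.adjoint_inner_right,
      ContinuousLinearMap.adjoint_inner_right, inner_self_eq_norm_sq_to_K]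
    -- values
    have e3 : inner ℂ (v.2 h) y = conj (inner ℂ x ((w * v).2 x)) := by
      rw [← inner_conj_symm]
      congr 1
      have hc : v.2 h = (v * w).2 y := rfl
      rw [hc, hstate _ (P.alg.mul_mem hv hw)]
      have := P.comm v hv w hw
      have h4 : (v * w).2 = (w * v).2 := by simpa using this
      rw [h4]
    have e4 : inner ℂ (v'.2 h) x = conj (inner ℂ x (((f * w) * v').2 x)) / (τ : ℂ) := by
      rw [← inner_conj_symm]
      have hc : v'.2 h = (v' * w).2 y := rfl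
      rw [hc, hmixed (v' * w)]
      rw [map_div₀, Complex.conj_ofReal]
      congr 2
      have h4 : (v' * w * f).2 = (f * w * v').2 := by
        have h5 := P.comm v' hv' (w * f) (P.alg.mul_mem hw hf)
        have h6 := P.comm f hf w hw
        simp only [Prod.snd_mul] at h5 h6 ⊢
        rw [mul_assoc, h5, ← h6]
      rw [h4]
    rw [e3, e4, hh]
    push_cast
    simp
    ring
  -- the bound on the first term
  have hA : (inner ℂ h (P.S (star (star w.1) * star w.1) h)).re ≤ 2 * ‖h‖ ^ 2 :=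
    P.S_le (star w.1) h (by
      refine (ContinuousMap.norm_le _ zero_le_one).2 fun s => ?_
      rw [ContinuousMap.star_apply, norm_star]
      exact (w.1.norm_coe_le_norm s).trans hw1)
  -- the bound on the second term
  have hB : (inner ℂ x (P.S (star f.1 * f.1) x) + inner ℂ y (P.S (star (-1) * (-1)) y)
        + inner ℂ x (P.S (star f.1 * (-1)) y) + inner ℂ y (P.S (star (-1) * f.1) x)).re
      ≤ 2 * etaTwo P f x y := by
    have h1 := P.S_le f.1 x hf1
    rw [hx] at h1
    have h2 : inner ℂ y (P.S (star (-1 : C(X, ℂ)) * (-1)) y) = (2 : ℂ) := by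
      have : star (-1 : C(X, ℂ)) * (-1) = 1 := by simp
      rw [this, P.S_one, smul_apply, ContinuousLinearMap.one_apply, inner_smul_right, hyy, mul_one]
    have h3 : inner ℂ x (P.S (star f.1 * (-1)) y) = - conj (inner ℂ y (P.S f.1 x)) := by
      have : star f.1 * (-1 : C(X, ℂ)) = - star f.1 := by simp
      rw [this, map_neg, ContinuousLinearMap.neg_apply, inner_neg_right, CPTwo.inner_S_conj]
    have h4 : inner ℂ y (P.S (star (-1 : C(X, ℂ)) * f.1) x) = - inner ℂ y (P.S f.1 x) := by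
      have : star (-1 : C(X, ℂ)) * f.1 = - f.1 := by simp
      rw [this, map_neg, ContinuousLinearMap.neg_apply, inner_neg_right]
    rw [h2, h3, h4]
    simp only [Complex.add_re, Complex.neg_re, Complex.conj_re, etaTwo]
    have : (2 : ℂ).re = 2 := by norm_num
    rw [this]
    nlinarith
  rw [hZ] at hcs
  -- conclude
  set Z := ((τ - 1 : ℝ) : ℂ) * ((‖h‖ : ℂ) ^ 2) + conj (inner ℂ x (((f * w) * v').2 x)) / (τ : ℂ)
        - conj (inner ℂ x ((w * v).2 x)) with hZdef
  have hZre : Z.re = (τ - 1) * ‖h‖ ^ 2 + (inner ℂ x (((f * w) * v').2 x)).re / τ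
      - (inner ℂ x ((w * v).2 x)).re := by
    have : ((‖h‖ : ℂ)) ^ 2 = ((‖h‖ ^ 2 : ℝ) : ℂ) := by push_cast; rfl
    rw [hZdef, this, Complex.sub_re, Complex.add_re, Complex.re_ofReal_mul, Complex.ofReal_re,
      Complex.div_ofReal_re, Complex.conj_re, Complex.conj_re]
  have hZle : Z.re ≤ ‖Z‖ := Complex.re_le_norm Z
  have hcs2 : 2 * r * ‖Z‖ ≤ 2 * ‖h‖ ^ 2 + r ^ 2 * (2 * etaTwo P f x y) := by
    have h5 := mul_le_mul_of_nonneg_left hB (sq_nonneg r)
    linarith
  have hrτ : r * (τ - 1) = 1 := by rw [hr]; field_simp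
  -- multiply out
  have h6 : r * Z.re ≤ ‖h‖ ^ 2 + r ^ 2 * etaTwo P f x y := by
    have := mul_le_mul_of_nonneg_left hZle hrpos.le
    linarith
  have h7 : Z.re ≤ (τ - 1) * ‖h‖ ^ 2 + etaTwo P f x y / (τ - 1) := by
    have h8 := mul_le_mul_of_nonneg_left h6 hτ1.le
    have h9 : (τ - 1) * (r * Z.re) = Z.re := by
      rw [← mul_assoc, mul_comm (τ - 1) r, hrτ, one_mul]
    have h10 : (τ - 1) * (‖h‖ ^ 2 + r ^ 2 * etaTwo P f x y)
        = (τ - 1) * ‖h‖ ^ 2 + etaTwo P f x y / (τ - 1) := by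
      rw [hr]; field_simp
    rw [h9, h10] at h8
    exact h8
  rw [hZre] at h7
  linarith

/-- The defect is nonnegative. -/
lemma eta_two_nonneg (hf1 : ‖f.1‖ ≤ 1) (hx : ‖x‖ = 1) (hy : ‖y‖ = 1) : 0 ≤ etaTwo P f x y := by
  have hyy : inner ℂ y y = (1 : ℂ) := by rw [inner_self_eq_norm_sq_to_K, hy]; simp
  have h0 := P.S_pos f.1 (-1) 0 x y 0
  have h1 := P.S_le f.1 x hf1
  rw [hx] at h1
  have h2 : inner ℂ y (P.S (star (-1 : C(X, ℂ)) * (-1)) y) = (2 : ℂ) := by
    have : star (-1 : C(X, ℂ)) * (-1) = 1 := by simp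
    rw [this, P.S_one, smul_apply, ContinuousLinearMap.one_apply, inner_smul_right, hyy, mul_one]
  have h3 : inner ℂ x (P.S (star f.1 * (-1)) y) = - conj (inner ℂ y (P.S f.1 x)) := by
    have : star f.1 * (-1 : C(X, ℂ)) = - star f.1 := by simp
    rw [this, map_neg, ContinuousLinearMap.neg_apply, inner_neg_right, CPTwo.inner_S_conj]
  have h4 : inner ℂ y (P.S (star (-1 : C(X, ℂ)) * f.1) x) = - inner ℂ y (P.S f.1 x) := by
    have : star (-1 : C(X, ℂ)) * f.1 = - f.1 := by simp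
    rw [this, map_neg, ContinuousLinearMap.neg_apply, inner_neg_right]
  rw [h2, h3, h4] at h0
  simp only [mul_zero, zero_mul, star_zero, map_zero, ContinuousLinearMap.zero_apply,
    inner_zero_right, inner_zero_left, add_zero, Complex.add_re, Complex.neg_re,
    Complex.conj_re] at h0
  have : (2 : ℂ).re = 2 := by norm_num
  rw [this] at h0
  unfold etaTwo
  nlinarith

lemma inner_le_opNorm (B : H →L[ℂ] H) (hx : ‖x‖ = 1) : ‖inner ℂ x (B x)‖ ≤ ‖B‖ := by
  calc ‖inner ℂ x (B x)‖ ≤ ‖x‖ * ‖B x‖ := norm_inner_le_norm _ _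
    _ ≤ 1 * (‖B‖ * 1) := by
      rw [hx]
      gcongr
      simpa [hx] using B.le_opNorm x
    _ = ‖B‖ := by ring

end Rec

/-- **Main abstract theorem**: a bounded calculus with the above structure has norm at most two. -/
theorem two [FiniteDimensional ℂ H] (K : ℝ) (hK : ∀ u ∈ P.alg, ‖u.2‖ ≤ K * ‖u.1‖)
    {u : C(X, ℂ) × (H →L[ℂ] H)} (hu : u ∈ P.alg) (hu1 : ‖u.1‖ ≤ 1) : ‖u.2‖ ≤ 2 := by
  by_contra hlt
  push Not at hlt
  have hne : u.2 ≠ 0 := by
    intro h
    rw [h, norm_zero] at hlt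
    norm_num at hlt
  obtain ⟨x, y, hx, hy, hTx, hTy⟩ := exists_singular u.2 hne
  set τ : ℝ := ‖u.2‖ with hτdef
  have hτ0 : 0 < τ := by linarith
  have hτ1 : 1 < τ := by linarith
  have hζ : 0 < τ - 1 := by linarith
  have hK0 : 0 ≤ K := by
    by_contra hneg
    push Not at hneg
    have h1 := hK u hu
    have h2 : K * ‖u.1‖ ≤ 0 := mul_nonpos_of_nonpos_of_nonneg hneg.le (norm_nonneg _)
    linarith
  -- powers
  have hpow : ∀ k : ℕ, u ^ k ∈ P.alg := fun k => P.alg.pow_mem hu k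
  have hpow1 : ∀ k : ℕ, ‖(u ^ k).1‖ ≤ 1 := by
    intro k
    refine (ContinuousMap.norm_le _ zero_le_one).2 fun s => ?_
    have e : (u ^ k).1 = u.1 ^ k := rfl
    rw [e, ContinuousMap.pow_apply, norm_pow]
    exact pow_le_one₀ (norm_nonneg _) ((u.1.norm_coe_le_norm s).trans hu1)
  choose v hv hvS hvn using fun k => P.theta (u ^ k) (hpow k)
  set α : ℕ → ℝ := fun k => (inner ℂ x ((u ^ k * v k).2 x)).re with hα
  set η : ℝ := etaTwo P u x y with hη
  have hη0 : 0 ≤ η := eta_two_nonneg hu1 hx hy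
  -- the recursion
  have hrec : ∀ k, α (k + 1) ≤ τ * (α k + η / (τ - 1)) := by
    intro k
    have hS' : P.S (u * u ^ k).1 = (u * u ^ k).2 + ContinuousLinearMap.adjoint (v (k + 1)).2 := by
      have := hvS (k + 1)
      rwa [pow_succ'] at this
    have h := key_step hu hu1 hτ1 hx hy hTx hTy (hpow k) (hpow1 k) (hv k) (hv (k + 1)) (hvS k) hS'
    have e : inner ℂ x ((u * u ^ k * v (k + 1)).2 x) = inner ℂ x ((u ^ (k + 1) * v (k + 1)).2 x) := by
      rw [pow_succ']
    rw [e] at h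
    have h2 : α (k + 1) / τ ≤ α k + η / (τ - 1) := by
      simp only [hα]
      linarith
    rw [div_le_iff₀ hτ0] at h2
    linarith
  -- boundedness
  have hbdd : ∀ k, -K ≤ α k := by
    intro k
    have h1 : ‖(u ^ k * v k).1‖ ≤ 1 := by
      have : (u ^ k * v k).1 = (u ^ k).1 * (v k).1 := rfl
      rw [this]
      exact (norm_mul_le _ _).trans (mul_le_one₀ (hpow1 k) (norm_nonneg _) ((hvn k).trans (hpow1 k)))
    have h2 := hK _ (P.alg.mul_mem (hpow k) (hv k))
    have h3 : ‖(u ^ k * v k).2‖ ≤ K := by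
      have := mul_le_mul_of_nonneg_left h1 hK0
      linarith
    have h4 := inner_le_opNorm (u ^ k * v k).2 hx
    have h5 := Complex.abs_re_le_norm (inner ℂ x ((u ^ k * v k).2 x))
    have h6 := (abs_le.mp (h5.trans (h4.trans h3))).1
    exact h6
  -- the first term
  have hδ : -(τ * (η / (τ - 1) / (τ - 1))) ≤ α 1 := by
    set δ : ℝ := τ * (η / (τ - 1) / (τ - 1)) with hδdef
    by_contra hcon
    push Not at hcon
    set g : ℝ := -(α 1 + δ) with hg
    have hgpos : 0 < g := by rw [hg]; linarith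
    have hδ0 : 0 ≤ δ := by positivity
    have hind : ∀ k, α (k + 1) + δ ≤ τ ^ k * (α 1 + δ) := by
      intro k
      induction k with
      | zero => simp
      | succ n ih =>
        have h1 := hrec (n + 1)
        have h2 : τ * (η / (τ - 1)) + δ = τ * δ := by
          rw [hδdef]
          field_simp
          ring
        have h3 : τ * (α (n + 1) + δ) ≤ τ * (τ ^ n * (α 1 + δ)) :=
          mul_le_mul_of_nonneg_left ih hτ0.le
        calc α (n + 1 + 1) + δ ≤ τ * (α (n + 1) + η / (τ - 1)) + δ := by linarith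
          _ = τ * α (n + 1) + (τ * (η / (τ - 1)) + δ) := by ring
          _ = τ * (α (n + 1) + δ) := by rw [h2]; ring
          _ ≤ τ * (τ ^ n * (α 1 + δ)) := h3
          _ = τ ^ (n + 1) * (α 1 + δ) := by ring
    obtain ⟨n, hn⟩ := pow_unbounded_of_one_lt ((K + 1) / g) hτ1
    have h1 := hind n
    have h2 := hbdd (n + 1)
    have h3 : (K + 1) < τ ^ n * g := by
      rwa [div_lt_iff₀ hgpos] at hn
    have h4 : τ ^ n * (α 1 + δ) = -(τ ^ n * g) := by rw [hg]; ring
    rw [h4] at h1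
    linarith
  -- the value of the defect
  have hηval : η = 2 - τ - α 1 / τ := by
    have h1 := hvS 1
    rw [pow_one] at h1
    have hτc : (τ : ℂ) ≠ 0 := by exact_mod_cast hτ0.ne'
    have hyy : inner ℂ y y = (1 : ℂ) := by rw [inner_self_eq_norm_sq_to_K, hy]; simp
    have e0 : (u ^ 1 * v 1).2 = u.2 * (v 1).2 := by rw [pow_one]; rfl
    have e1 : inner ℂ x ((v 1).2 y) = inner ℂ x ((u ^ 1 * v 1).2 x) / (τ : ℂ) := by
      rw [e0]
      have hc : u.2 * (v 1).2 = (v 1).2 * u.2 := by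
        have := P.comm u hu (v 1) (hv 1)
        exact this
      rw [hc, ContinuousLinearMap.mul_apply, hTx, map_smul, inner_smul_right]
      field_simp
    have e2 : inner ℂ y (P.S u.1 x) = (τ : ℂ) + conj (inner ℂ x ((u ^ 1 * v 1).2 x)) / (τ : ℂ) := by
      rw [h1, ContinuousLinearMap.add_apply, inner_add_right, hTx, inner_smul_right, hyy, mul_one,
        ContinuousLinearMap.adjoint_inner_right, ← inner_conj_symm, e1]
      simp
    simp only [hη, etaTwo, e2, Complex.add_re, Complex.ofReal_re, hα]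
    have : (conj (inner ℂ x ((u ^ 1 * v 1).2 x)) / (τ : ℂ)).re = (inner ℂ x ((u ^ 1 * v 1).2 x)).re / τ := by
      rw [Complex.div_ofReal_re, Complex.conj_re]
    rw [this]
    ring
  -- conclusion
  have h1 : η / (τ - 1) / (τ - 1) ≤ η := by
    have h2 : η / (τ - 1) ≤ η := div_le_self hη0 (by linarith)
    refine (div_le_self (by positivity) (by linarith)).trans h2
  have h2 : -(τ * η) ≤ α 1 := by
    have := mul_le_mul_of_nonneg_left h1 hτ0.le
    linarith
  have h3 : α 1 / τ * τ = α 1 := by field_simp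
  have h4 : η * τ = (2 - τ) * τ - α 1 := by
    rw [hηval]
    ring_nf
    field_simp
    ring
  nlinarith

end Vale.Agent.Lib.P123
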