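import Vale.Agent.Lib.P123.Inst
import Vale.Agent.Lib.P123.Two

/-!
# The constant two on a support-function curve

The double layer map on a curve supplies the data of the abstract argument, which gives
the bound `2` on the curve, and then on the numerical range.
-/

open Complex MeasureTheory Set Filter Topology Polynomial ComplexConjugate
open scoped Real

set_option linter.unusedSectionVars false

namespace Vale.Agent.Lib.P123.U

lemma sum9_integral (f₁ f₂ f₃ f₄ f₅ f₆ f₇ f₈ f₉ : ℝ → ℂ) (a b : ℝ)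
    (h₁ : Continuous f₁) (h₂ : Continuous f₂) (h₃ : Continuous f₃) (h₄ : Continuous f₄)
    (h₅ : Continuous f₅) (h₆ : Continuous f₆) (h₇ : Continuous f₇) (h₈ : Continuous f₈)
    (h₉ : Continuous f₉) :
    (∫ t in a..b, f₁ t) + (∫ t in a..b, f₂ t) + (∫ t in a..b, f₃ t) + (∫ t in a..b, f₄ t)
      + (∫ t in a..b, f₅ t) + (∫ t in a..b, f₆ t) + (∫ t in a..b, f₇ t) + (∫ t in a..b, f₈ t)
      + (∫ t in a..b, f₉ t) =
      ∫ t in a..b, (f₁ t + f₂ t + f₃ t + f₄ t + f₅ t + f₆ t + f₇ t + f₈ t + f₉ t) := by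
  have hadd : ∀ f g : ℝ → ℂ, Continuous f → Continuous g →
      (∫ t in a..b, f t) + (∫ t in a..b, g t) = ∫ t in a..b, (f t + g t) := fun f g hf hg =>
    (intervalIntegral.integral_add (hf.intervalIntegrable _ _) (hg.intervalIntegrable _ _)).symm
  have c2 : Continuous fun t => f₁ t + f₂ t := h₁.add h₂
  have c3 : Continuous fun t => f₁ t + f₂ t + f₃ t := c2.add h₃
  have c4 : Continuous fun t => f₁ t + f₂ t + f₃ t + f₄ t := c3.add h₄
  have c5 : Continuous fun t => f₁ t + f₂ t + f₃ t + f₄ t + f₅ t := c4.add h₅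
  have c6 : Continuous fun t => f₁ t + f₂ t + f₃ t + f₄ t + f₅ t + f₆ t := c5.add h₆
  have c7 : Continuous fun t => f₁ t + f₂ t + f₃ t + f₄ t + f₅ t + f₆ t + f₇ t := c6.add h₇
  have c8 : Continuous fun t => f₁ t + f₂ t + f₃ t + f₄ t + f₅ t + f₆ t + f₇ t + f₈ t := c7.add h₈
  rw [hadd _ _ h₁ h₂, hadd _ _ c2 h₃, hadd _ _ c3 h₄, hadd _ _ c4 h₅, hadd _ _ c5 h₆,
    hadd _ _ c6 h₇, hadd _ _ c7 h₈, hadd _ _ c8 h₉]

section Complete

variable {E : Type} [NormedAddCommGroup E] [InnerProductSpace ℂ E] [FiniteDimensional ℂ E]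
  [CompleteSpace E]

namespace SCurve

variable (C : SCurve) {A : E →L[ℂ] E} {g : ℝ} (hg : 0 < g)
  (hW : ∀ v : E, ‖v‖ = 1 → ∀ t, g ≤ C.D (inner ℂ v (A v)) t)

include hg hW

/-- the pointwise positivity identity, three vectors -/
lemma GG_expand3 (α β γ : ℂ) (a b c : E) (t : ℝ) :
    C.GG A (α • a + β • b + γ • c) (α • a + β • b + γ • c) t =
      (conj α * α) * C.GG A a a t + (conj β * β) * C.GG A b b t + (conj γ * γ) * C.GG A c c t
        + (conj α * β) * C.GG A a b t + (conj β * α) * C.GG A b a t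
        + (conj α * γ) * C.GG A a c t + (conj γ * α) * C.GG A c a t
        + (conj β * γ) * C.GG A b c t + (conj γ * β) * C.GG A c b t := by
  unfold GG
  simp only [map_add, map_smul, inner_add_left, inner_add_right, inner_smul_left, inner_smul_right]
  ring

lemma SS_pos3 (α β γ : C(Xs, ℂ)) (a b c : E) :
    0 ≤ (inner ℂ a (C.SS hg hW (star α * α) a) + inner ℂ b (C.SS hg hW (star β * β) b)
      + inner ℂ c (C.SS hg hW (star γ * γ) c)
      + inner ℂ a (C.SS hg hW (star α * β) b) + inner ℂ b (C.SS hg hW (star β * α) a)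
      + inner ℂ a (C.SS hg hW (star α * γ) c) + inner ℂ c (C.SS hg hW (star γ * α) a)
      + inner ℂ b (C.SS hg hW (star β * γ) c) + inner ℂ c (C.SS hg hW (star γ * β) b)).re := by
  simp only [C.inner_SS hg hW]
  have hc : ∀ (F : C(Xs, ℂ)) (a b : E), Continuous fun t => ext F t * C.GG A a b t :=
    fun F a b => (continuous_ext F).mul (C.cont_GG hg hW a b)
  rw [sum9_integral _ _ _ _ _ _ _ _ _ _ _ (hc _ _ _) (hc _ _ _) (hc _ _ _) (hc _ _ _) (hc _ _ _)
    (hc _ _ _) (hc _ _ _) (hc _ _ _) (hc _ _ _)]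
  have e : ∀ t, ext (star α * α) t * C.GG A a a t + ext (star β * β) t * C.GG A b b t
      + ext (star γ * γ) t * C.GG A c c t
      + ext (star α * β) t * C.GG A a b t + ext (star β * α) t * C.GG A b a t
      + ext (star α * γ) t * C.GG A a c t + ext (star γ * α) t * C.GG A c a t
      + ext (star β * γ) t * C.GG A b c t + ext (star γ * β) t * C.GG A c b t =
      C.GG A (ext α t • a + ext β t • b + ext γ t • c) (ext α t • a + ext β t • b + ext γ t • c) t := by
    intro t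
    rw [C.GG_expand3 hg hW]
    simp only [ext_mul, ext_star]
  have hcc : Continuous fun t => ext (star α * α) t * C.GG A a a t + ext (star β * β) t * C.GG A b b t
      + ext (star γ * γ) t * C.GG A c c t
      + ext (star α * β) t * C.GG A a b t + ext (star β * α) t * C.GG A b a t
      + ext (star α * γ) t * C.GG A a c t + ext (star γ * α) t * C.GG A c a t
      + ext (star β * γ) t * C.GG A b c t + ext (star γ * β) t * C.GG A c b t :=
    (((((((((hc _ _ _).add (hc _ _ _)).add (hc _ _ _)).add (hc _ _ _)).add (hc _ _ _)).add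
      (hc _ _ _)).add (hc _ _ _)).add (hc _ _ _)).add (hc _ _ _))
  simp_rw [e]
  simp_rw [e] at hcc
  have h3 := Complex.reCLM.intervalIntegral_comp_comm (hcc.intervalIntegrable (μ := volume) 0 (2 * π))
  simp only [Complex.reCLM_apply] at h3
  rw [← h3]
  refine intervalIntegral.integral_nonneg two_pi_nn fun t _ => ?_
  exact C.GG_self_re hg hW _ t

lemma norm_star_cm_le (F : C(Xs, ℂ)) : ‖star F‖ ≤ ‖F‖ :=
  (ContinuousMap.norm_le _ (norm_nonneg _)).2 fun s => by
    rw [ContinuousMap.star_apply, norm_star]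
    exact F.norm_coe_le_norm s

/-- The data for the abstract argument. -/
noncomputable def cpTwo (v₀ : E) (hv₀ : ‖v₀‖ = 1) : Vale.Agent.Lib.P123.CPTwo Xs E where
  alg := C.alg1 A
  comm := C.alg1_comm A
  S := C.SS hg hW
  S_one := C.SS_one hg hW v₀ hv₀
  S_star := C.SS_star hg hW
  S_pos := C.SS_pos3 hg hW
  S_le := fun F x hF => C.SS_le hg hW v₀ hv₀ F x hF
  theta := by
    intro u hu
    refine ⟨(C.LCmap (star u.1), C.Cau A (star u.1)), C.pair_mem hg hW u hu, ?_, ?_⟩
    · rw [SS_apply]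
      congr 1
      exact (C.snd_eq_Cau hg hW v₀ hv₀ u hu).symm
    · exact (C.norm_LCmap_le _).trans (C.norm_star_cm_le hg hW _)

/-- The main estimate on the curve, with the constant two. -/
theorem main_curve_two (v₀ : E) (hv₀ : ‖v₀‖ = 1) (P : ℂ[X]) (M : ℝ)
    (hM : ∀ t, ‖P.eval (C.x t)‖ ≤ M) :
    ‖Polynomial.aeval A P‖ ≤ 2 * M := by
  have hM0 : 0 ≤ M := (norm_nonneg _).trans (hM 0)
  have hKb : ∀ u ∈ C.alg1 A, ‖u.2‖ ≤ (C.Rb / g) * ‖u.1‖ := by
    intro u hu
    rw [C.snd_eq_Cau hg hW v₀ hv₀ u hu]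
    exact C.norm_Cau_le hg hW _
  have hmem : Polynomial.aeval (C.u0 A) P ∈ C.alg1 A := subset_closure ⟨P, rfl⟩
  have hb2 : ‖Polynomial.aeval C.coordX P‖ ≤ M :=
    (ContinuousMap.norm_le _ hM0).2 fun s => by
      rw [C.aeval_coordX]; exact hM s
  rcases hM0.eq_or_lt with h0 | hpos
  · have h := hKb _ hmem
    rw [aeval_u0_fst, aeval_u0_snd] at h
    have h1 : ‖Polynomial.aeval C.coordX P‖ = 0 := le_antisymm (h0 ▸ hb2) (norm_nonneg _)
    rw [h1, mul_zero] at h
    rw [← h0, mul_zero]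
    exact h
  · set c : ℂ := ((M : ℂ))⁻¹ with hc
    have hcn : ‖c‖ = M⁻¹ := by
      rw [hc, norm_inv, Complex.norm_real, Real.norm_of_nonneg hM0]
    have hmem2 : c • Polynomial.aeval (C.u0 A) P ∈ C.alg1 A := Subalgebra.smul_mem _ hmem c
    have h1 : ‖(c • Polynomial.aeval (C.u0 A) P).1‖ ≤ 1 := by
      rw [Prod.smul_fst, norm_smul, hcn, aeval_u0_fst]
      calc M⁻¹ * ‖Polynomial.aeval C.coordX P‖ ≤ M⁻¹ * M :=
            mul_le_mul_of_nonneg_left hb2 (inv_nonneg.2 hM0)
        _ = 1 := inv_mul_cancel₀ hpos.ne'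
    have h2 := Vale.Agent.Lib.P123.two (C.cpTwo hg hW v₀ hv₀) (C.Rb / g) hKb hmem2 h1
    rw [Prod.smul_snd, norm_smul, hcn, aeval_u0_snd] at h2
    have h3 := mul_le_mul_of_nonneg_left h2 hM0
    rw [← mul_assoc, mul_inv_cancel₀ hpos.ne', one_mul] at h3
    linarith

end SCurve
end Complete

/-- The final theorem: the Crouzeix constant is at most `2`. -/
theorem crouzeix_two {H : Type*} [NormedAddCommGroup H] [InnerProductSpace ℂ H] [Nontrivial H]
    (A : H →L[ℂ] H) (P : ℂ[X]) (M : ℝ) (hP : ∀ v : H, ‖v‖ = 1 → ‖P.eval (inner ℂ v (A v))‖ ≤ M) :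
    ‖Polynomial.aeval A P‖ ≤ 2 * M := by
  refine reduction' _ (by norm_num) ?_ A P M hP
  intro C E _ _ _ A g v₀ hg hv₀ hW P M hM
  have : CompleteSpace E := FiniteDimensional.complete ℂ E
  exact C.main_curve_two hg hW v₀ hv₀ P M hM

end Vale.Agent.Lib.P123.U
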