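import Mathlib

open Polynomial ComplexConjugate

namespace Vale.Agent.Lib.P123

variable {H : Type*} [NormedAddCommGroup H] [InnerProductSpace ℂ H]

/-- Lagrange interpolation identity for a polynomial with simple roots. -/
lemma sum_divByMonic_eq_one (Q : ℂ[X]) (hdeg : 0 < Q.natDegree)
    (hsimple : ∀ r, Q.IsRoot r → Q.derivative.eval r ≠ 0) :
    ∑ r ∈ Q.roots.toFinset, C (Q.derivative.eval r)⁻¹ * (Q /ₘ (X - C r)) = 1 := by
  classical
  have hQ0 : Q ≠ 0 := by
    rintro rfl
    simp at hdeg
  set S := Q.roots.toFinset with hS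
  have hfac : ∀ r ∈ S, (X - C r) * (Q /ₘ (X - C r)) = Q := by
    intro r hr
    have : Q.IsRoot r := (Polynomial.mem_roots hQ0).1 (Multiset.mem_toFinset.1 hr)
    exact (Polynomial.mul_divByMonic_eq_iff_isRoot).2 this
  have hder : ∀ r ∈ S, (Q /ₘ (X - C r)).eval r = Q.derivative.eval r := by
    intro r hr
    conv_rhs => rw [← hfac r hr]
    simp [Polynomial.derivative_mul]
  have hzero : ∀ r ∈ S, ∀ r' ∈ S, r' ≠ r → (Q /ₘ (X - C r)).eval r' = 0 := by
    intro r hr r' hr' hne
    have h1 : Q.eval r' = 0 := (Polynomial.mem_roots hQ0).1 (Multiset.mem_toFinset.1 hr')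
    rw [← hfac r hr, eval_mul] at h1
    have h2 : (X - C r).eval r' ≠ 0 := by
      simpa [sub_eq_zero] using hne
    exact (mul_eq_zero.1 h1).resolve_left h2
  have hnodup : Q.roots.Nodup := by
    rw [Multiset.nodup_iff_count_le_one]
    intro a
    rw [Polynomial.count_roots]
    by_contra hc
    have h1 : 1 < Q.rootMultiplicity a := not_le.1 hc
    have := (Polynomial.one_lt_rootMultiplicity_iff_isRoot hQ0).1 h1
    exact hsimple a this.1 this.2
  have hcard : S.card = Q.natDegree := by
    rw [hS, Multiset.toFinset_card_of_nodup hnodup]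
    exact (Polynomial.splits_iff_card_roots).1 (IsAlgClosed.splits Q)
  refine Polynomial.eq_of_degree_sub_lt_of_eval_finset_eq S ?_ ?_
  · have hdeglt : ∀ r ∈ S, (C (Q.derivative.eval r)⁻¹ * (Q /ₘ (X - C r))).degree < (S.card : WithBot ℕ) := by
      intro r hr
      have h0 : 0 < (X - C r).degree := by
        rw [degree_X_sub_C]
        norm_num
      have h1 : (Q /ₘ (X - C r)).degree < Q.degree :=
        Polynomial.degree_divByMonic_lt Q (X - C r) hQ0 h0
      rw [Polynomial.degree_eq_natDegree hQ0, ← hcard] at h1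
      refine lt_of_le_of_lt (degree_mul_le _ _) ?_
      refine lt_of_le_of_lt (add_le_add_left degree_C_le _) ?_
      simpa using h1
    have h1 : (∑ r ∈ S, C (Q.derivative.eval r)⁻¹ * (Q /ₘ (X - C r))).degree < (S.card : WithBot ℕ) := by
      refine lt_of_le_of_lt (Polynomial.degree_sum_le _ _) ?_
      rw [Finset.sup_lt_iff]
      · exact hdeglt
      · exact WithBot.bot_lt_coe _
    have h2 : (1 : ℂ[X]).degree < (S.card : WithBot ℕ) := by
      rw [degree_one, hcard]
      exact_mod_cast hdeg
    exact lt_of_le_of_lt (Polynomial.degree_sub_le _ _) (max_lt h1 h2)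
  · intro x hx
    rw [eval_finsetSum, eval_one]
    rw [Finset.sum_eq_single x]
    · rw [eval_mul, eval_C, hder x hx]
      apply inv_mul_cancel₀
      apply hsimple
      exact (Polynomial.mem_roots hQ0).1 (Multiset.mem_toFinset.1 hx)
    · intro r hr hne
      rw [eval_mul, hzero r hr x hx (Ne.symm hne), mul_zero]
    · intro h
      exact absurd hx h

/-- Evaluation of the product `(X - r) * R` at an operator. -/
lemma aeval_factor (A : H →L[ℂ] H) (Q R : ℂ[X]) (r : ℂ) (h : (X - C r) * R = Q) (u : H) :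
    (aeval A Q) u = A ((aeval A R) u) - r • (aeval A R) u := by
  rw [← h, map_mul, map_sub, aeval_X, aeval_C]
  simp

/-- The key inequality: if every root of `Q` is simple and gives a half-plane (with respect to the
direction `κ`) containing the numerical range, the form of `Q(A)` has nonpositive `κ`-real part. -/
theorem key_inequality (A : H →L[ℂ] H) (Q : ℂ[X]) (hdeg : 0 < Q.natDegree) (κ : ℂ)
    (hroot : ∀ r, Q.IsRoot r → Q.derivative.eval r ≠ 0 ∧
      ∀ x : H, ‖x‖ = 1 → (conj κ * Q.derivative.eval r * (inner ℂ x (A x) - r)).re ≤ 0)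
    (u : H) : (conj κ * inner ℂ u ((aeval A Q) u)).re ≤ 0 := by
  classical
  have hQ0 : Q ≠ 0 := by
    rintro rfl
    simp at hdeg
  have hlag := sum_divByMonic_eq_one Q hdeg (fun r hr => (hroot r hr).1)
  set S := Q.roots.toFinset with hS
  have hmem : ∀ r ∈ S, Q.IsRoot r := fun r hr =>
    (Polynomial.mem_roots hQ0).1 (Multiset.mem_toFinset.1 hr)
  have hfac : ∀ r ∈ S, (X - C r) * (Q /ₘ (X - C r)) = Q := fun r hr =>
    (Polynomial.mul_divByMonic_eq_iff_isRoot).2 (hmem r hr)
  -- the components of `u`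
  set y : ℂ → H := fun r => (aeval A (C (Q.derivative.eval r)⁻¹ * (Q /ₘ (X - C r)))) u with hy
  have hsum : ∑ r ∈ S, y r = u := by
    have h1 := congrArg (fun p => (aeval A p) u) hlag
    simp only [map_sum, map_one, FunLike.coe_sum, Finset.sum_apply] at h1
    simpa [hy] using h1
  -- each component satisfies `Q(A) u = Q'(r) • (A - r) y_r`
  have hcomp : ∀ r ∈ S, (aeval A Q) u = Q.derivative.eval r • (A (y r) - r • y r) := by
    intro r hr
    have hne := (hroot r (hmem r hr)).1
    have h1 := aeval_factor A Q (Q /ₘ (X - C r)) r (hfac r hr) u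
    have h2 : y r = (Q.derivative.eval r)⁻¹ • (aeval A (Q /ₘ (X - C r))) u := by
      simp [hy, map_mul]
    rw [h2, h1, map_smul, smul_comm r, ← smul_sub, smul_smul, mul_inv_cancel₀ hne, one_smul]
  have hinner : inner ℂ u ((aeval A Q) u)
      = ∑ r ∈ S, Q.derivative.eval r * inner ℂ (y r) (A (y r) - r • y r) := by
    have hv : ∀ v : H, inner ℂ u v = ∑ r ∈ S, inner ℂ (y r) v := by
      intro v
      rw [← sum_inner, hsum]
    rw [hv]
    refine Finset.sum_congr rfl fun r hr => ?_
    conv_lhs => rw [hcomp r hr]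
    rw [inner_smul_right]
  rw [hinner, Finset.mul_sum, Complex.re_sum]
  refine Finset.sum_nonpos fun r hr => ?_
  have hhalf := (hroot r (hmem r hr)).2
  by_cases hyr : y r = 0
  · simp [hyr]
  · have hnorm : ‖y r‖ ≠ 0 := norm_ne_zero_iff.2 hyr
    set x : H := ((‖y r‖ : ℂ)⁻¹) • y r with hx
    have hxnorm : ‖x‖ = 1 := by
      rw [hx, norm_smul, norm_inv, Complex.norm_real, norm_norm, inv_mul_cancel₀ hnorm]
    have hyx : y r = (‖y r‖ : ℂ) • x := by
      rw [hx, smul_smul, mul_inv_cancel₀ (by exact_mod_cast hnorm), one_smul]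
    have hcalc : inner ℂ (y r) (A (y r) - r • y r)
        = ((‖y r‖ ^ 2 : ℝ) : ℂ) * (inner ℂ x (A x) - r) := by
      have hxx : inner ℂ x x = (1 : ℂ) := by
        rw [inner_self_eq_norm_sq_to_K, hxnorm]
        simp
      rw [hyx, map_smul]
      simp only [inner_sub_right, inner_smul_left, inner_smul_right, hxx]
      rw [← hyx]
      simp only [Complex.conj_ofReal]
      push_cast
      ring
    rw [hcalc]
    have h3 := hhalf x hxnorm
    have h4 : conj κ * (Q.derivative.eval r * (((‖y r‖ ^ 2 : ℝ) : ℂ) * (inner ℂ x (A x) - r)))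
        = ((‖y r‖ ^ 2 : ℝ) : ℂ) * (conj κ * Q.derivative.eval r * (inner ℂ x (A x) - r)) := by
      ring
    rw [h4, Complex.re_ofReal_mul]
    exact mul_nonpos_of_nonneg_of_nonpos (by positivity) h3

end Vale.Agent.Lib.P123
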