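import Mathlib
import Vale.Agent.Lib.P123.Key

open Polynomial ComplexConjugate Filter Topology

namespace Vale.Agent.Lib.P123

variable {H : Type*} [NormedAddCommGroup H] [InnerProductSpace ℂ H]

/-- First-order condition at a boundary maximum along a segment. -/
lemma first_order (P : ℂ[X]) (κ r z : ℂ)
    (h : ∀ t : ℝ, 0 < t → t ≤ 1 → (conj κ * (P.eval (r + t * (z - r)) - P.eval r)).re ≤ 0) :
    (conj κ * P.derivative.eval r * (z - r)).re ≤ 0 := by
  -- the function along the segment
  set g : ℝ → ℂ := fun t => P.eval (r + t * (z - r)) with hg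
  have hg0 : g 0 = P.eval r := by simp [hg]
  have hline : HasDerivAt (fun t : ℝ => r + (t : ℂ) * (z - r)) (z - r) 0 := by
    have h1 : HasDerivAt (fun t : ℝ => (t : ℂ)) 1 0 := Complex.ofRealCLM.hasDerivAt
    have h2 := (h1.mul_const (z - r)).const_add r
    simpa using h2
  have hd : HasDerivAt g (P.derivative.eval r * (z - r)) 0 := by
    have h1 : HasDerivAt (fun w : ℂ => P.eval w) (P.derivative.eval (r + ((0 : ℝ) : ℂ) * (z - r)))
        (r + ((0 : ℝ) : ℂ) * (z - r)) := P.hasDerivAt _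
    have h2 : HasDerivAt ((fun w : ℂ => P.eval w) ∘ fun t : ℝ => r + (t : ℂ) * (z - r))
        ((z - r) • P.derivative.eval (r + ((0 : ℝ) : ℂ) * (z - r))) (0 : ℝ) :=
      h1.scomp (0 : ℝ) hline
    have h3 : (z - r) • P.derivative.eval (r + ((0 : ℝ) : ℂ) * (z - r))
        = P.derivative.eval r * (z - r) := by
      simp [mul_comm]
    rw [h3] at h2
    exact h2
  have hs := hasDerivAt_iff_tendsto_slope.1 hd
  have hs' : Tendsto (slope g 0) (𝓝[>] 0) (𝓝 (P.derivative.eval r * (z - r))) :=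
    hs.mono_left (nhdsWithin_mono _ (fun t ht => ne_of_gt ht))
  have hre : Tendsto (fun t => (conj κ * slope g 0 t).re) (𝓝[>] 0)
      (𝓝 (conj κ * (P.derivative.eval r * (z - r))).re) := by
    have h1 : Continuous fun w : ℂ => (conj κ * w).re := by fun_prop
    exact (h1.tendsto _).comp hs'
  have hmain : (conj κ * (P.derivative.eval r * (z - r))).re ≤ 0 := by
    refine le_of_tendsto hre ?_
    have hev : ∀ᶠ t : ℝ in 𝓝[>] 0, t ∈ Set.Ioc (0 : ℝ) 1 :=
      Ioc_mem_nhdsGT (by norm_num)
    filter_upwards [hev] with t ht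
    have h2 := h t ht.1 ht.2
    have h3 : conj κ * slope g 0 t
        = ((t⁻¹ : ℝ) : ℂ) * (conj κ * (P.eval (r + t * (z - r)) - P.eval r)) := by
      rw [slope_def_module, hg0, sub_zero, Complex.real_smul]
      simp only [hg]
      ring
    rw [h3, Complex.re_ofReal_mul]
    exact mul_nonpos_of_nonneg_of_nonpos (inv_nonneg.2 ht.1.le) h2
  have : conj κ * P.derivative.eval r * (z - r) = conj κ * (P.derivative.eval r * (z - r)) := by
    ring
  rwa [this]

/-- Numerical radius and norm: polarization bound. -/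
lemma opNorm_le_two_mul (T : H →L[ℂ] H) (M : ℝ) (hM : 0 ≤ M)
    (h : ∀ u : H, ‖inner ℂ u (T u)‖ ≤ M * ‖u‖ ^ 2) : ‖T‖ ≤ 2 * M := by
  refine ContinuousLinearMap.opNorm_le_of_re_inner_le (by positivity) fun x y hx hy => ?_
  have h' : ∀ u : H, ‖inner ℂ (T u) u‖ ≤ M * ‖u‖ ^ 2 := by
    intro u
    rw [← inner_conj_symm, RCLike.norm_conj]
    exact h u
  -- polarization for the form, with `T x` in the first slot
  have hpol := inner_map_polarization (T : H →ₗ[ℂ] H) y x
  simp only [ContinuousLinearMap.coe_coe] at hpol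
  have hb : ‖inner ℂ (T x) y‖ ≤ 2 * M := by
    rw [hpol, norm_div]
    have h4 : ‖(4 : ℂ)‖ = 4 := by simp
    rw [h4, div_le_iff₀ (by norm_num)]
    have h1 := h' (y + x)
    have h2 := h' (y - x)
    have h3 := h' (y + Complex.I • x)
    have h5 := h' (y - Complex.I • x)
    have hp1 := parallelogram_law_with_norm ℂ y x
    have hp2 := parallelogram_law_with_norm ℂ y (Complex.I • x)
    have hIx : ‖Complex.I • x‖ = 1 := by
      rw [norm_smul, Complex.norm_I, one_mul, hx]
    rw [hx, hy] at hp1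
    rw [hIx, hy] at hp2
    calc ‖inner ℂ (T (y + x)) (y + x) - inner ℂ (T (y - x)) (y - x)
            + Complex.I * inner ℂ (T (y + Complex.I • x)) (y + Complex.I • x)
            - Complex.I * inner ℂ (T (y - Complex.I • x)) (y - Complex.I • x)‖
        ≤ ‖inner ℂ (T (y + x)) (y + x)‖ + ‖inner ℂ (T (y - x)) (y - x)‖
            + ‖inner ℂ (T (y + Complex.I • x)) (y + Complex.I • x)‖
            + ‖inner ℂ (T (y - Complex.I • x)) (y - Complex.I • x)‖ := by
          refine (norm_sub_le _ _).trans ?_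
          refine add_le_add ((norm_add_le _ _).trans (add_le_add (norm_sub_le _ _) ?_)) ?_
          · simp
          · simp
      _ ≤ M * ‖y + x‖ ^ 2 + M * ‖y - x‖ ^ 2 + M * ‖y + Complex.I • x‖ ^ 2
            + M * ‖y - Complex.I • x‖ ^ 2 := by
          gcongr
      _ = M * (‖y + x‖ ^ 2 + ‖y - x‖ ^ 2) + M * (‖y + Complex.I • x‖ ^ 2
            + ‖y - Complex.I • x‖ ^ 2) := by ring
      _ = 2 * M * 4 := by
          rw [hp1, hp2]
          ring
  exact (Complex.re_le_norm _).trans hb

/-- The basic half-plane inequality at a support point `s` in the direction `κ`. -/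
theorem support_inequality (A : H →L[ℂ] H) (P : ℂ[X]) (hdeg : 0 < P.natDegree) (K : Set ℂ)
    (hK : Convex ℝ K) (hW : ∀ x : H, ‖x‖ = 1 → inner ℂ x (A x) ∈ K) (s κ : ℂ)
    (hsup : ∀ z ∈ K, (conj κ * (P.eval z - s)).re ≤ 0)
    (hroots : ∀ r, P.eval r = s → r ∈ K ∧ P.derivative.eval r ≠ 0) (u : H) :
    (conj κ * inner ℂ u ((aeval A P) u)).re ≤ (conj κ * s).re * ‖u‖ ^ 2 := by
  set Q : ℂ[X] := P - C s with hQ
  have hQdeg : Q.natDegree = P.natDegree := natDegree_sub_C
  have hQd : Q.derivative = P.derivative := by simp [hQ]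
  have hQe : ∀ r, Q.eval r = P.eval r - s := by simp [hQ]
  have hkey := key_inequality A Q (by rw [hQdeg]; exact hdeg) κ (by
    intro r hr
    have hr' : P.eval r = s := by
      have : Q.eval r = 0 := hr
      rw [hQe] at this
      exact sub_eq_zero.1 this
    obtain ⟨hrK, hrd⟩ := hroots r hr'
    rw [hQd]
    refine ⟨hrd, fun x hx => ?_⟩
    refine first_order P κ r _ fun t ht0 ht1 => ?_
    have hmem : r + (t : ℂ) * (inner ℂ x (A x) - r) ∈ K := by
      have h1 := hK hrK (hW x hx) (sub_nonneg.2 ht1) ht0.le (by ring)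
      have h2 : (1 - t) • r + t • inner ℂ x (A x) = r + (t : ℂ) * (inner ℂ x (A x) - r) := by
        simp only [Complex.real_smul]
        push_cast
        ring
      rwa [h2] at h1
    rw [hr']
    exact hsup _ hmem) u
  have hexp : (aeval A Q) u = (aeval A P) u - s • u := by
    simp [hQ]
  rw [hexp, inner_sub_right, inner_smul_right, inner_self_eq_norm_sq_to_K] at hkey
  have h2 : conj κ * (inner ℂ u ((aeval A P) u) - s * ((‖u‖ : ℂ) ^ 2))
      = conj κ * inner ℂ u ((aeval A P) u) - ((‖u‖ ^ 2 : ℝ) : ℂ) * (conj κ * s) := by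
    push_cast
    ring
  have h3 := hkey
  simp only [RCLike.ofReal_eq_complex_ofReal] at h3
  rw [h2, Complex.sub_re, Complex.re_ofReal_mul] at h3
  linarith

/-- The lemniscate mapping theorem in the main case `M > 0`, `deg P ≥ 1`. -/
theorem lemniscate_pos (A : H →L[ℂ] H) (P : ℂ[X]) (hdeg : 0 < P.natDegree) (M : ℝ) (hM : 0 < M)
    (hconv : Convex ℝ {z : ℂ | ‖P.eval z‖ ≤ M})
    (hW : ∀ x : H, ‖x‖ = 1 → ‖P.eval (inner ℂ x (A x))‖ ≤ M) (u : H) :
    ‖inner ℂ u ((aeval A P) u)‖ ≤ M * ‖u‖ ^ 2 := by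
  classical
  set ζ : ℂ := inner ℂ u ((aeval A P) u) with hζ
  -- the critical values
  set CV : Finset ℂ := P.derivative.roots.toFinset.image (fun r => P.eval r) with hCV
  have hP' : P.derivative ≠ 0 := by
    intro h0
    have := Polynomial.derivative_eq_zero.1 h0
    omega
  -- the bad angles
  set bad : Set ℝ := {θ : ℝ | ((M : ℂ) * Complex.exp (θ * Complex.I)) ∈ CV} with hbad
  have hbadc : bad.Countable := by
    have h1 : bad ⊆ ⋃ c ∈ (CV : Set ℂ), {θ : ℝ | ((M : ℂ) * Complex.exp (θ * Complex.I)) = c} := by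
      intro θ hθ
      simp only [Set.mem_iUnion, Set.mem_ofPred_eq, exists_prop]
      exact ⟨_, hθ, rfl⟩
    refine Set.Countable.mono h1 ?_
    refine Set.Countable.biUnion (Finset.countable_toSet CV) fun c _ => ?_
    by_cases hne : ∃ θ₀ : ℝ, (M : ℂ) * Complex.exp (θ₀ * Complex.I) = c
    · obtain ⟨θ₀, h0⟩ := hne
      have hsub : {θ : ℝ | ((M : ℂ) * Complex.exp (θ * Complex.I)) = c}
          ⊆ Set.range (fun n : ℤ => θ₀ + n * (2 * Real.pi)) := by
        intro θ hθ
        have h2 : (M : ℂ) * Complex.exp (θ * Complex.I) = (M : ℂ) * Complex.exp (θ₀ * Complex.I) :=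
          hθ.trans h0.symm
        have hMne : (M : ℂ) ≠ 0 := by exact_mod_cast hM.ne'
        have h3 := mul_left_cancel₀ hMne h2
        obtain ⟨n, hn⟩ := Complex.exp_eq_exp_iff_exists_int.1 h3
        refine ⟨n, ?_⟩
        have hI : Complex.I ≠ 0 := Complex.I_ne_zero
        have h4 : ((θ : ℂ)) = (θ₀ : ℂ) + n * (2 * Real.pi) := by
          apply mul_right_cancel₀ hI
          rw [hn]
          ring
        have h5 : θ = θ₀ + n * (2 * Real.pi) := by exact_mod_cast h4
        exact h5.symm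
      exact (Set.countable_range _).mono hsub
    · have : {θ : ℝ | ((M : ℂ) * Complex.exp (θ * Complex.I)) = c} = ∅ := by
        ext θ
        simp only [Set.mem_ofPred_eq, Set.mem_empty_iff_false, iff_false]
        exact fun h => hne ⟨θ, h⟩
      rw [this]
      exact Set.countable_empty
  have hdense : Dense badᶜ := hbadc.dense_compl ℝ
  -- the inequality for good angles
  have hgood : ∀ θ ∈ badᶜ, (conj (Complex.exp (θ * Complex.I)) * ζ).re ≤ M * ‖u‖ ^ 2 := by
    intro θ hθ
    set κ : ℂ := Complex.exp (θ * Complex.I) with hκ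
    have hκn : ‖κ‖ = 1 := Complex.norm_exp_ofReal_mul_I θ
    have hκκ : conj κ * κ = 1 := by
      rw [Complex.conj_mul']
      simp [hκn]
    have hs := support_inequality A P hdeg {z : ℂ | ‖P.eval z‖ ≤ M} hconv hW ((M : ℂ) * κ) κ
      (by
        intro z hz
        have h1 : conj κ * (P.eval z - (M : ℂ) * κ) = conj κ * P.eval z - (M : ℂ) * (conj κ * κ) := by
          ring
        rw [h1, hκκ, mul_one, Complex.sub_re, Complex.ofReal_re]
        have h2 : (conj κ * P.eval z).re ≤ ‖conj κ * P.eval z‖ := Complex.re_le_norm _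
        rw [norm_mul, RCLike.norm_conj, hκn, one_mul] at h2
        have h3 : ‖P.eval z‖ ≤ M := hz
        linarith)
      (by
        intro r hr
        constructor
        · have h1 : ‖P.eval r‖ = M := by
            rw [hr, norm_mul, hκn, mul_one, Complex.norm_real, Real.norm_of_nonneg hM.le]
          exact h1.le
        · intro hd
          apply hθ
          have h1 : r ∈ P.derivative.roots.toFinset :=
            Multiset.mem_toFinset.2 ((Polynomial.mem_roots hP').2 hd)
          have h2 : P.eval r ∈ CV := Finset.mem_image_of_mem _ h1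
          rw [hr] at h2
          exact h2)
      u
    have h1 : conj κ * ((M : ℂ) * κ) = (M : ℂ) * (conj κ * κ) := by ring
    rw [h1, hκκ, mul_one, Complex.ofReal_re] at hs
    exact hs
  -- closedness gives all angles
  have hall : ∀ θ : ℝ, (conj (Complex.exp (θ * Complex.I)) * ζ).re ≤ M * ‖u‖ ^ 2 := by
    have hclosed : IsClosed {θ : ℝ | (conj (Complex.exp (θ * Complex.I)) * ζ).re ≤ M * ‖u‖ ^ 2} := by
      refine isClosed_le ?_ continuous_const
      have h1 : Continuous fun θ : ℝ => Complex.exp (θ * Complex.I) := by fun_prop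
      have h2 : Continuous fun θ : ℝ => conj (Complex.exp (θ * Complex.I)) :=
        Complex.continuous_conj.comp h1
      exact Complex.continuous_re.comp (h2.mul continuous_const)
    have hsub : badᶜ ⊆ {θ : ℝ | (conj (Complex.exp (θ * Complex.I)) * ζ).re ≤ M * ‖u‖ ^ 2} := hgood
    have h3 := hclosed.closure_subset_iff.2 hsub
    rw [hdense.closure_eq] at h3
    exact fun θ => h3 (Set.mem_univ θ)
  have hfin := hall (Complex.arg ζ)
  have hnorm : conj (Complex.exp ((Complex.arg ζ : ℝ) * Complex.I)) * ζ = (‖ζ‖ : ℂ) := by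
    have h1 : (‖ζ‖ : ℂ) * Complex.exp ((Complex.arg ζ : ℝ) * Complex.I) = ζ :=
      Complex.norm_mul_exp_arg_mul_I ζ
    have h2 : conj (Complex.exp ((Complex.arg ζ : ℝ) * Complex.I))
        * Complex.exp ((Complex.arg ζ : ℝ) * Complex.I) = 1 := by
      rw [Complex.conj_mul']
      simp [Complex.norm_exp_ofReal_mul_I]
    calc conj (Complex.exp ((Complex.arg ζ : ℝ) * Complex.I)) * ζ
        = conj (Complex.exp ((Complex.arg ζ : ℝ) * Complex.I))
            * ((‖ζ‖ : ℂ) * Complex.exp ((Complex.arg ζ : ℝ) * Complex.I)) := by rw [h1]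
      _ = (‖ζ‖ : ℂ) * (conj (Complex.exp ((Complex.arg ζ : ℝ) * Complex.I))
            * Complex.exp ((Complex.arg ζ : ℝ) * Complex.I)) := by ring
      _ = (‖ζ‖ : ℂ) := by rw [h2, mul_one]
  rw [hnorm, Complex.ofReal_re] at hfin
  exact hfin

/-- The form bound for an arbitrary vector from the hypothesis on unit vectors, constant case. -/
lemma lemniscate_const (A : H →L[ℂ] H) (P : ℂ[X]) (hdeg : P.natDegree = 0) (M : ℝ)
    (hW : ∀ x : H, ‖x‖ = 1 → ‖P.eval (inner ℂ x (A x))‖ ≤ M) (u : H) :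
    ‖inner ℂ u ((aeval A P) u)‖ ≤ M * ‖u‖ ^ 2 := by
  obtain ⟨c, rfl⟩ : ∃ c, P = C c := ⟨P.coeff 0, Polynomial.eq_C_of_natDegree_eq_zero hdeg⟩
  by_cases hu : u = 0
  · simp [hu]
  · have hn : ‖u‖ ≠ 0 := norm_ne_zero_iff.2 hu
    have hx : ‖((‖u‖ : ℂ)⁻¹) • u‖ = 1 := by
      rw [norm_smul, norm_inv, Complex.norm_real, norm_norm, inv_mul_cancel₀ hn]
    have h1 := hW _ hx
    rw [eval_C] at h1
    have h2 : (aeval A (C c)) u = c • u := by simp
    rw [h2, inner_smul_right, inner_self_eq_norm_sq_to_K, norm_mul, norm_pow]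
    have h3 : ‖((‖u‖ : ℝ) : ℂ)‖ = ‖u‖ := by simp
    simp only [RCLike.ofReal_eq_complex_ofReal, h3]
    exact mul_le_mul_of_nonneg_right h1 (by positivity)

/-- The degenerate level `M = 0`. -/
lemma lemniscate_zero (A : H →L[ℂ] H) (P : ℂ[X]) (hdeg : 0 < P.natDegree)
    (hconv : Convex ℝ {z : ℂ | ‖P.eval z‖ ≤ 0})
    (hW : ∀ x : H, ‖x‖ = 1 → ‖P.eval (inner ℂ x (A x))‖ ≤ 0) : aeval A P = 0 := by
  classical
  by_cases hH : ∃ x₀ : H, ‖x₀‖ = 1
  · obtain ⟨x₀, hx₀⟩ := hH
    have hP0 : P ≠ 0 := by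
      rintro rfl
      simp at hdeg
    set r : ℂ := inner ℂ x₀ (A x₀) with hr
    have hrroot : P.eval r = 0 := by simpa using hW x₀ hx₀
    -- the zero set is finite, convex, hence a single point
    have hsub : {z : ℂ | ‖P.eval z‖ ≤ 0} = (P.roots.toFinset : Set ℂ) := by
      ext z
      simp [hP0]
    have hfin : ({z : ℂ | ‖P.eval z‖ ≤ 0}).Finite := by
      rw [hsub]
      exact Finset.finite_toSet _
    have hsing : ∀ z, P.eval z = 0 → z = r := by
      intro z hz
      by_contra hne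
      have hseg : segment ℝ r z ⊆ {z : ℂ | ‖P.eval z‖ ≤ 0} :=
        hconv.segment_subset (by simp [hrroot]) (by simp [hz])
      have hinf : (segment ℝ r z).Infinite := by
        rw [segment_eq_image_lineMap]
        refine Set.Infinite.image ?_ (Set.Icc_infinite (by norm_num : (0 : ℝ) < 1))
        exact (AffineMap.lineMap_injective ℝ (Ne.symm hne)).injOn
      exact hinf (hfin.subset hseg)
    -- hence `A = r`
    have hform : ∀ x : H, inner ℂ ((A - r • (1 : H →L[ℂ] H)) x) x = (0 : ℂ) := by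
      intro x
      by_cases hx : x = 0
      · simp [hx]
      · have hn : ‖x‖ ≠ 0 := norm_ne_zero_iff.2 hx
        have hnc : (‖x‖ : ℂ) ≠ 0 := by exact_mod_cast hn
        set v : H := ((‖x‖ : ℂ)⁻¹) • x with hv
        have hvn : ‖v‖ = 1 := by
          rw [hv, norm_smul, norm_inv, Complex.norm_real, norm_norm, inv_mul_cancel₀ hn]
        have hxv : x = (‖x‖ : ℂ) • v := by
          rw [hv, smul_smul, mul_inv_cancel₀ hnc, one_smul]
        have h1 : P.eval (inner ℂ v (A v)) = 0 := by simpa using hW v hvn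
        have h2 := hsing _ h1
        have h3 : inner ℂ (A v) v = conj r := by
          rw [← inner_conj_symm, h2]
        have hvv : inner ℂ v v = (1 : ℂ) := by
          rw [inner_self_eq_norm_sq_to_K, hvn]
          simp
        rw [hxv]
        simp only [_root_.sub_apply, _root_.smul_apply,
          one_apply_eq_self, map_smul, inner_smul_left, inner_smul_right,
          inner_sub_left, h3, hvv]
        ring_nf
    have hA : A - r • (1 : H →L[ℂ] H) = 0 := by
      have h1 := (inner_map_self_eq_zero ((A - r • (1 : H →L[ℂ] H) : H →L[ℂ] H) : H →ₗ[ℂ] H)).1 hform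
      ext x
      have h2 := congrArg (fun f : H →ₗ[ℂ] H => f x) h1
      simpa using h2
    have hA' : A = algebraMap ℂ (H →L[ℂ] H) r := by
      rw [Algebra.algebraMap_eq_smul_one]
      exact sub_eq_zero.1 hA
    rw [hA', Polynomial.aeval_algebraMap_apply, Polynomial.aeval_def]
    simp [Polynomial.eval₂_eq_eval_map, hrroot]
  · push Not at hH
    ext x
    by_cases hx : x = 0
    · simp [hx]
    · exfalso
      have hn : ‖x‖ ≠ 0 := norm_ne_zero_iff.2 hx
      apply hH (((‖x‖ : ℂ)⁻¹) • x)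
      rw [norm_smul, norm_inv, Complex.norm_real, norm_norm, inv_mul_cancel₀ hn]

/-- **Lemniscate mapping theorem.** If the sublevel set `{|P| ≤ M}` is convex and contains the
numerical range of `A`, then the numerical radius of `P(A)` is at most `M`, and `‖P(A)‖ ≤ 2 M`. -/
theorem lemniscate_mapping (A : H →L[ℂ] H) (P : ℂ[X]) (M : ℝ) (hM : 0 ≤ M)
    (hconv : Convex ℝ {z : ℂ | ‖P.eval z‖ ≤ M})
    (hW : ∀ x : H, ‖x‖ = 1 → ‖P.eval (inner ℂ x (A x))‖ ≤ M) :
    (∀ x : H, ‖x‖ = 1 → ‖inner ℂ x ((aeval A P) x)‖ ≤ M) ∧ ‖aeval A P‖ ≤ 2 * M := by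
  have hform : ∀ u : H, ‖inner ℂ u ((aeval A P) u)‖ ≤ M * ‖u‖ ^ 2 := by
    rcases Nat.eq_zero_or_pos P.natDegree with hdeg | hdeg
    · exact lemniscate_const A P hdeg M hW
    · rcases hM.eq_or_lt with hM0 | hMpos
      · subst hM0
        have h0 := lemniscate_zero A P hdeg hconv hW
        intro u
        simp [h0]
      · exact lemniscate_pos A P hdeg M hMpos hconv hW
  refine ⟨fun x hx => ?_, opNorm_le_two_mul _ M hM hform⟩
  have := hform x
  rwa [hx, one_pow, mul_one] at this

end Vale.Agent.Lib.P123
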